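import Vale.Agent.P363.H979.CI.Blocks
import Mathlib.Algebra.BigOperators.Fin
import Mathlib.Analysis.Complex.Basic
import Mathlib.GroupTheory.Perm.Fin
import Mathlib.Data.Fintype.Perm

/-!
Definitions for block B3b (finite-dimensional first-order problem).

Orbital labels: `0 = 1s`, `1 = 2s`, `2, 3, 4 = 2p₀, 2p₁, 2p₂` (as in `R.Top.orb`); spin labels
`0 = up`, `1 = down` (as in `Stmt.ElectronState`).
-/

namespace Vale.Agent.P363.H979.CI

open scoped ComplexConjugate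

noncomputable section

/-- Spin-orbital labels. -/
abbrev SO : Type := Fin 5 × Fin 2

/-- Tensors on spin-orbital labels. -/
abbrev Ten (N : ℕ) : Type := (Fin N → SO) → ℂ

/-- Antisymmetric tensors. -/
def Anti {N : ℕ} (c : Ten N) : Prop :=
  ∀ (σ : Equiv.Perm (Fin N)) (J : Fin N → SO),
    c (J ∘ σ) = ((Equiv.Perm.sign σ : ℤ) : ℂ) * c J

/-- Tensors supported on tuples that contain `1s up` and `1s down`. -/
def Core {N : ℕ} (c : Ten N) : Prop :=
  ∀ J, c J ≠ 0 → (∃ i, J i = ((0 : Fin 5), (0 : Fin 2))) ∧ ∃ i, J i = ((0 : Fin 5), (1 : Fin 2))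

/-- Squared norm of a tensor. -/
def nsq {N : ℕ} (c : Ten N) : ℝ := ∑ J, ‖c J‖ ^ 2

/-- Inner product of tensors, conjugate linear in the first argument. -/
def tin {N : ℕ} (c d : Ten N) : ℂ := ∑ J, conj (c J) * d J

/-- Spin-orbital matrix element of the repulsion. -/
def vel (D : Fin 5 → Fin 5 → Fin 5 → Fin 5 → ℝ) (p q p' q' : SO) : ℝ :=
  if p.2 = p'.2 ∧ q.2 = q'.2 then D p.1 p'.1 q.1 q'.1 else 0

/-- Repulsion form on antisymmetric tensors of `n + 2` electrons;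
`D a b c d = ∬ φ_a(x) φ_b(x) φ_c(y) φ_d(y) / |x - y|`. -/
def WF (D : Fin 5 → Fin 5 → Fin 5 → Fin 5 → ℝ) {n : ℕ} (c : Ten (n + 2)) : ℝ :=
  ((n + 2 : ℝ) * (n + 1) / 2) * ∑ J : Fin n → SO, ∑ p, ∑ q, ∑ p', ∑ q',
    vel D p q p' q' *
      (conj (c (Fin.cons p (Fin.cons q J))) * c (Fin.cons p' (Fin.cons q' J))).re

/-- The facts on the Coulomb integrals that enter the first-order problem (output of B3a). -/
structure Table (D : Fin 5 → Fin 5 → Fin 5 → Fin 5 → ℝ) : Prop where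
  symm_left : ∀ a b c d, D a b c d = D b a c d
  symm_pair : ∀ a b c d, D a b c d = D c d a b
  /-- parity: if the number of labels `k` among `a b c d` is odd for some `2p` label `k`, the
  integral vanishes -/
  parity : ∀ k : Fin 5, 2 ≤ k → ∀ a b c d,
    Odd ((if a = k then 1 else 0) + (if b = k then 1 else 0) + (if c = k then 1 else 0) +
      (if d = k then 1 else 0) : ℕ) → D a b c d = 0
  v0011 : D 0 0 1 1 = 17 / 81
  v0101 : D 0 1 0 1 = 16 / 729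
  v00pp : ∀ i : Fin 5, 2 ≤ i → D 0 0 i i = 59 / 243
  v0p0p : ∀ i : Fin 5, 2 ≤ i → D 0 i 0 i = 112 / 6561
  v1111 : D 1 1 1 1 = 77 / 512
  v11pp : ∀ i : Fin 5, 2 ≤ i → D 1 1 i i = 83 / 512
  v1p1p : ∀ i : Fin 5, 2 ≤ i → D 1 i 1 i = 15 / 512
  vpppp : ∀ i : Fin 5, 2 ≤ i → D i i i i = 501 / 2560
  vppqq : ∀ i j : Fin 5, 2 ≤ i → 2 ≤ j → i ≠ j → D i i j j = 447 / 2560
  vpqpq : ∀ i j : Fin 5, 2 ≤ i → 2 ≤ j → i ≠ j → D i j i j = 27 / 2560

/-- Antisymmetrisation of a tensor. -/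
def asym {N : ℕ} (b : Ten N) : Ten N := fun J =>
  ∑ σ : Equiv.Perm (Fin N), ((Equiv.Perm.sign σ : ℤ) : ℂ) * b (J ∘ σ)

/-- Indicator tensor of one tuple. -/
def ind {N : ℕ} (I : Fin N → SO) : Ten N := fun J => if J = I then 1 else 0

/-- The tuple `1s up, 1s down, a up, a down, (e, s)`. -/
def tup5 (a e : Fin 5) (s : Fin 2) : Fin 5 → SO := ![(0, 0), (0, 1), (a, 0), (a, 1), (e, s)]

/-- The tuple `1s up, 1s down, a up, a down`. -/
def tup4 (a : Fin 5) : Fin 4 → SO := ![(0, 0), (0, 1), (a, 0), (a, 1)]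

/-- Normalisation constant of the atomic ground tensors: `eta5² * 120 * (1 + 2 t5²) = 1`. -/
def eta5 : ℝ := 1 / Real.sqrt (120 * (1 + 2 * t5 ^ 2))

/-- Normalisation constant of the ionic ground tensor: `eta4² * 24 * (1 + 3 t4²) = 1`. -/
def eta4 : ℝ := 1 / Real.sqrt (24 * (1 + 3 * t4 ^ 2))

/-- Ground tensors of the atom (`N = 5`), `e = 2, 3, 4` the direction of the open `2p` orbital,
`s` its spin: `1s² 2s² 2p_e + t5 Σ_{a ≠ e} 1s² 2p_a² 2p_e`, normalised. -/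
def C5 (e : Fin 5) (s : Fin 2) : Ten 5 := asym fun J =>
  (eta5 : ℂ) * (ind (tup5 1 e s) J +
    (t5 : ℂ) * ∑ a : Fin 5, if 2 ≤ a ∧ a ≠ e then ind (tup5 a e s) J else 0)

/-- Ground tensor of the ion (`N = 4`): `1s² 2s² + t4 Σ_a 1s² 2p_a²`, normalised. -/
def C4 : Ten 4 := asym fun J =>
  (eta4 : ℂ) * (ind (tup4 1) J + (t4 : ℂ) * ∑ a : Fin 5, if 2 ≤ a then ind (tup4 a) J else 0)

/-- The statement of the spectral gap for the atom, lowest value `J + w5` with `J = D 0 0 0 0`. -/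
def Gap5 : Prop := ∀ D, Table D → ∀ c : Ten 5, Anti c → Core c →
  (D 0 0 0 0 + w5) * nsq c +
    1 / 20 * (nsq c - ∑ e ∈ ({2, 3, 4} : Finset (Fin 5)), ∑ s, ‖tin (C5 e s) c‖ ^ 2) ≤ WF D c

/-- The statement of the spectral gap for the ion, lowest value `J + w4` with `J = D 0 0 0 0`. -/
def Gap4 : Prop := ∀ D, Table D → ∀ c : Ten 4, Anti c → Core c →
  (D 0 0 0 0 + w4) * nsq c + 1 / 20 * (nsq c - ‖tin C4 c‖ ^ 2) ≤ WF D c

end

end Vale.Agent.P363.H979.CI
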