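import Vale.Agent.P363.H979.CI.Reduce5

/-!
Reduction of the four-electron problem to two shell electrons, and the lower bound.
-/

namespace Vale.Agent.P363.H979.CI

noncomputable section

variable {D : Fin 5 → Fin 5 → Fin 5 → Fin 5 → ℝ}

/-- Real antisymmetric arrays with four slots. -/
structure Anti4 (c : SO → SO → SO → SO → ℝ) : Prop where
  s1 : ∀ p q r s, c q p r s = - c p q r s
  s2 : ∀ p q r s, c p r q s = - c p q r s
  s3 : ∀ p q r s, c p q s r = - c p q r s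
  core1 : ∀ p q r s, p ≠ o1 → q ≠ o1 → r ≠ o1 → s ≠ o1 → c p q r s = 0
  core2 : ∀ p q r s, p ≠ o2 → q ≠ o2 → r ≠ o2 → s ≠ o2 → c p q r s = 0

namespace Anti4

variable {c : SO → SO → SO → SO → ℝ} (h : Anti4 c)
include h

theorem d12 (p r s) : c p p r s = 0 := by linarith [h.s1 p p r s]
theorem d23 (p q s) : c p q q s = 0 := by linarith [h.s2 p q q s]
theorem d34 (p q r) : c p q r r = 0 := by linarith [h.s3 p q r r]
theorem d13 (p q s) : c p q p s = 0 := by rw [h.s2]; rw [h.d12]; simp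
theorem d14 (p q r) : c p q r p = 0 := by rw [h.s3]; rw [h.d13]; simp

/-- moving two labels over two others. -/
theorem move2 (p q r s) : c p q r s = c r s p q := by
  rw [h.s2 p r q s, h.s1 r p q s, h.s3 r p s q, h.s2 r s p q]
  ring

/-- cyclic move of the first three labels -/
theorem cyc3 (p q r s) : c p q r s = c r p q s := by
  rw [h.s2 p r q s, h.s1 r p q s]
  ring

end Anti4

/-- The shell array of `c`. -/
def sh4 (c : SO → SO → SO → SO → ℝ) (p q : Sh) : ℝ := c o1 o2 (em p) (em q)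

/-- Squared norm. -/
def nr4 (c : SO → SO → SO → SO → ℝ) : ℝ := ∑ r, ∑ s, np (fun p q => c p q r s)

/-- Repulsion form, real curried version. -/
def W4 (D : Fin 5 → Fin 5 → Fin 5 → Fin 5 → ℝ) (c : SO → SO → SO → SO → ℝ) : ℝ :=
  6 * ∑ r, ∑ s, Vf D (fun p q => c p q r s)

/-- Squared norm of a shell array. -/
def nS2 (u : Sh → Sh → ℝ) : ℝ := ∑ r, ∑ s, u r s ^ 2

/-- Shell form for two electrons. -/
def QS2 (u : Sh → Sh → ℝ) : ℝ := 2 * (∑ q, ∑ r, ep q.1 * u q r ^ 2) + VS u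

theorem nr4_eq {c : SO → SO → SO → SO → ℝ} (h : Anti4 c) : nr4 c = 12 * nS2 (sh4 c) := by
  unfold nr4
  rw [sum2_sym]
  · have e3 : ∀ r s : Sh, np (fun p q => c p q (em r) (em s)) =
        2 * sh4 c r s ^ 2 := fun r s =>
      np3 _ (fun p q => h.s1 _ _ _ _)
        (fun p q => h.core1 _ _ _ _ (em_ne_o1 _) (em_ne_o1 _) (em_ne_o1 _) (em_ne_o1 _))
        (fun q => h.core2 _ _ _ _ o1_ne_o2 (em_ne_o2 _) (em_ne_o2 _) (em_ne_o2 _))
        (fun q => h.core1 _ _ _ _ o1_ne_o2.symm (em_ne_o1 _) (em_ne_o1 _) (em_ne_o1 _))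
    have e1 : ∀ r : Sh, np (fun p q => c p q o1 (em r)) = 2 * ∑ q : Sh, sh4 c q r ^ 2 := by
      intro r
      rw [np1 (fun p q => c p q o1 (em r)) (fun p q => h.s1 _ _ _ _)
        (fun p q => h.core2 _ _ _ _ (em_ne_o2 _) (em_ne_o2 _) o1_ne_o2 (em_ne_o2 _))
        (fun q => h.d13 _ _ _)]
      congr 1
      refine Finset.sum_congr rfl fun q _ => ?_
      rw [h.cyc3]; rfl
    have e2 : ∀ r : Sh, np (fun p q => c p q o2 (em r)) = 2 * ∑ q : Sh, sh4 c q r ^ 2 := by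
      intro r
      rw [np2 (fun p q => c p q o2 (em r)) (fun p q => h.s1 _ _ _ _)
        (fun p q => h.core1 _ _ _ _ (em_ne_o1 _) (em_ne_o1 _) o1_ne_o2.symm (em_ne_o1 _))
        (fun q => h.d13 _ _ _)]
      congr 1
      refine Finset.sum_congr rfl fun q _ => ?_
      rw [h.s2 o1 o2 (em q), neg_sq]; rfl
    have e0 : np (fun p q => c p q o1 o2) = ∑ p : Sh, ∑ q : Sh, sh4 c p q ^ 2 := by
      rw [np0 (fun p q => c p q o1 o2) (fun p q => h.s1 _ _ _ _) (fun q => h.d13 _ _ _)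
        (fun q => h.d14 _ _ _)]
      refine Finset.sum_congr rfl fun p _ => Finset.sum_congr rfl fun q _ => ?_
      rw [h.move2]; rfl
    simp only [e3, e1, e2, e0]
    have r1 : ∑ r : Sh, ∑ s : Sh, 2 * sh4 c r s ^ 2 = 2 * nS2 (sh4 c) := by
      unfold nS2
      simp only [Finset.mul_sum]
    have r2 : ∑ r : Sh, 2 * ∑ q : Sh, sh4 c q r ^ 2 = 2 * nS2 (sh4 c) := by
      unfold nS2
      rw [← Finset.mul_sum, Finset.sum_comm]
    have r3 : ∑ p : Sh, ∑ q : Sh, sh4 c p q ^ 2 = nS2 (sh4 c) := rfl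
    rw [r1, r2, r3]
    ring
  · intro r s
    rw [show (fun p q => c p q r s) = fun p q => - c p q s r from
      funext fun p => funext fun q => h.s3 _ _ _ _]
    exact np_neg _
  · rw [show (fun p q => c p q o1 o1) = fun _ _ => 0 from
      funext fun p => funext fun q => h.d34 _ _ _]
    exact np_zero
  · rw [show (fun p q => c p q o2 o2) = fun _ _ => 0 from
      funext fun p => funext fun q => h.d34 _ _ _]
    exact np_zero

theorem W4_eq (T : Table D) {c : SO → SO → SO → SO → ℝ} (h : Anti4 c) :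
    W4 D c = 12 * (D 0 0 0 0 * nS2 (sh4 c) + QS2 (sh4 c)) := by
  unfold W4
  rw [sum2_sym]
  · have e3 : ∀ r s : Sh, Vf D (fun p q => c p q (em r) (em s)) =
        2 * D 0 0 0 0 * sh4 c r s ^ 2 := fun r s =>
      pair3 _ (fun p q => h.s1 _ _ _ _)
        (fun p q => h.core1 _ _ _ _ (em_ne_o1 _) (em_ne_o1 _) (em_ne_o1 _) (em_ne_o1 _))
        (fun q => h.core2 _ _ _ _ o1_ne_o2 (em_ne_o2 _) (em_ne_o2 _) (em_ne_o2 _))
        (fun q => h.core1 _ _ _ _ o1_ne_o2.symm (em_ne_o1 _) (em_ne_o1 _) (em_ne_o1 _))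
    have e1 : ∀ r : Sh, Vf D (fun p q => c p q o1 (em r)) =
        2 * (∑ b : Fin 4, Jc b * sh4 c (b, 0) r ^ 2) +
        2 * ∑ b : Fin 4, (Jc b - Kc b) * sh4 c (b, 1) r ^ 2 := by
      intro r
      rw [pair1 T (fun p q => c p q o1 (em r)) (fun p q => h.s1 _ _ _ _)
        (fun p q => h.core2 _ _ _ _ (em_ne_o2 _) (em_ne_o2 _) o1_ne_o2 (em_ne_o2 _))
        (fun q => h.d13 _ _ _)]
      have e : ∀ q : Sh, c o2 (em q) o1 (em r) = sh4 c q r := fun q => by
        rw [h.cyc3]; rfl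
      simp only [e]
    have e2 : ∀ r : Sh, Vf D (fun p q => c p q o2 (em r)) =
        2 * (∑ b : Fin 4, Jc b * sh4 c (b, 1) r ^ 2) +
        2 * ∑ b : Fin 4, (Jc b - Kc b) * sh4 c (b, 0) r ^ 2 := by
      intro r
      rw [pair2 T (fun p q => c p q o2 (em r)) (fun p q => h.s1 _ _ _ _)
        (fun p q => h.core1 _ _ _ _ (em_ne_o1 _) (em_ne_o1 _) o1_ne_o2.symm (em_ne_o1 _))
        (fun q => h.d13 _ _ _)]
      have e : ∀ q : Sh, c o1 (em q) o2 (em r) ^ 2 = sh4 c q r ^ 2 := fun q => by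
        rw [h.s2 o1 o2 (em q), neg_sq]; rfl
      simp only [e]
    have e0 : Vf D (fun p q => c p q o1 o2) = VS (sh4 c) := by
      rw [pair0 T (fun p q => c p q o1 o2) (fun p q => h.s1 _ _ _ _)
        (fun q => h.d13 _ _ _) (fun q => h.d14 _ _ _)]
      have e : ∀ p q : Sh, c (em p) (em q) o1 o2 = sh4 c p q := fun p q => by
        rw [h.move2]; rfl
      simp only [e]
    simp only [e3, e1, e2, e0]
    have r1 : ∑ r : Sh, ∑ s : Sh, 2 * D 0 0 0 0 * sh4 c r s ^ 2 =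
        2 * D 0 0 0 0 * nS2 (sh4 c) := by
      unfold nS2
      simp only [Finset.mul_sum]
    have r2 : 2 * (∑ r : Sh, (2 * (∑ b : Fin 4, Jc b * sh4 c (b, 0) r ^ 2) +
        2 * ∑ b : Fin 4, (Jc b - Kc b) * sh4 c (b, 1) r ^ 2)) +
        2 * (∑ r : Sh, (2 * (∑ b : Fin 4, Jc b * sh4 c (b, 1) r ^ 2) +
        2 * ∑ b : Fin 4, (Jc b - Kc b) * sh4 c (b, 0) r ^ 2)) =
        4 * (∑ q : Sh, ∑ r : Sh, ep q.1 * sh4 c q r ^ 2) := by
      rw [← mul_add, ← Finset.sum_add_distrib]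
      have e : ∀ r : Sh, (2 * (∑ b : Fin 4, Jc b * sh4 c (b, 0) r ^ 2) +
          2 * ∑ b : Fin 4, (Jc b - Kc b) * sh4 c (b, 1) r ^ 2) +
          (2 * (∑ b : Fin 4, Jc b * sh4 c (b, 1) r ^ 2) +
          2 * ∑ b : Fin 4, (Jc b - Kc b) * sh4 c (b, 0) r ^ 2) =
          2 * ∑ q : Sh, ep q.1 * sh4 c q r ^ 2 := by
        intro r
        rw [Fintype.sum_prod_type, Finset.mul_sum]
        simp only [Fin.sum_univ_two, ep_eq]
        simp only [Finset.mul_sum]
        rw [← Finset.sum_add_distrib, ← Finset.sum_add_distrib, ← Finset.sum_add_distrib]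
        refine Finset.sum_congr rfl fun b _ => by ring
      simp only [e]
      rw [← Finset.mul_sum, Finset.sum_comm]
      ring
    have r3 : ∀ x y z w : ℝ, x + y + z + w = x + (y + z) + w := fun x y z w => by ring
    rw [r1, r3, r2]
    unfold QS2
    ring
  · intro r s
    rw [show (fun p q => c p q r s) = fun p q => - c p q s r from
      funext fun p => funext fun q => h.s3 _ _ _ _]
    exact Vf_neg _
  · rw [show (fun p q => c p q o1 o1) = fun _ _ => 0 from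
      funext fun p => funext fun q => h.d34 _ _ _]
    exact Vf_zero
  · rw [show (fun p q => c p q o2 o2) = fun _ _ => 0 from
      funext fun p => funext fun q => h.d34 _ _ _]
    exact Vf_zero

/-- Ground component of a shell array of two electrons. -/
def gT (u : Sh → Sh → ℝ) : ℝ :=
  u (0, 0) (0, 1) + t4 * ∑ a : Fin 4, if a ≠ 0 then u (a, 0) (a, 1) else 0

theorem QS2_ge {u : Sh → Sh → ℝ} (h : ∀ p q, u q p = - u p q) :
    w4 * nS2 u + 1 / 20 * (nS2 u - 2 * gT u ^ 2 / (1 + 3 * t4 ^ 2)) ≤ QS2 u := by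
  have hA := QJ_ge (fun a b => u (a, 0) (b, 0)) (fun a b => h _ _)
  have hE := QJ_ge (fun a b => u (a, 1) (b, 1)) (fun a b => h _ _)
  have hB := QI_ge (fun a b => u (a, 0) (b, 1))
  have e1 : VM (fun a b => u (a, 1) (b, 0)) = VM (fun a b => u (a, 0) (b, 1)) := by
    rw [← VM_transpose, ← VM_neg]
    congr 1
    funext a b
    rw [h (a, 0) (b, 1)]; ring
  have e2 : ∀ a b, u (a, 1) (b, 0) ^ 2 = u (b, 0) (a, 1) ^ 2 := fun a b => by
    rw [h (b, 0) (a, 1)]; ring
  have n : nS2 u = n2 (fun a b => u (a, 0) (b, 0)) + 2 * n2 (fun a b => u (a, 0) (b, 1)) +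
      n2 (fun a b => u (a, 1) (b, 1)) := by
    unfold nS2 n2
    simp only [Fintype.sum_prod_type, Fin.sum_univ_two, Finset.sum_add_distrib, e2]
    rw [Finset.sum_comm (f := fun x y => u (y, 0) (x, 1) ^ 2)]
    ring
  have k : ∀ σ : Fin 2, ∑ a, ∑ b, ep b * u (a, σ) (b, σ) ^ 2 =
      ∑ a, ∑ b, ep a * u (a, σ) (b, σ) ^ 2 := by
    intro σ
    rw [Finset.sum_comm]
    refine Finset.sum_congr rfl fun a _ => Finset.sum_congr rfl fun b _ => ?_
    rw [h]; ring
  have q : QS2 u = QJ (fun a b => u (a, 0) (b, 0)) + 2 * QI (fun a b => u (a, 0) (b, 1)) +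
      QJ (fun a b => u (a, 1) (b, 1)) := by
    unfold QS2 QJ QI VS
    simp only [Fintype.sum_prod_type, Fin.sum_univ_two, Finset.sum_add_distrib, e2, e1, add_mul,
      k]
    rw [Finset.sum_comm (f := fun x y => ep x * u (y, 0) (x, 1) ^ 2)]
    ring
  have g : gT u ^ 2 = gI (fun a b => u (a, 0) (b, 1)) ^ 2 := by
    unfold gT gI
    simp only [Fin.sum_univ_four]
    simp
    ring
  rw [n, q, g]
  have e : ∀ x d : ℝ, 2 * x / d = 2 * (x / d) := fun x d => by ring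
  rw [e]
  linarith

end

end Vale.Agent.P363.H979.CI
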