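import Vale.Agent.P363.H979.CI.Spin3
import Vale.Agent.P363.H979.CI.Reduce4

/-!
Block B3b: the spectral gap of the first-order problem (`gap5`, `gap4`).
-/

namespace Vale.Agent.P363.H979.CI

open scoped ComplexConjugate

noncomputable section

variable {D : Fin 5 → Fin 5 → Fin 5 → Fin 5 → ℝ}

/-- Inner product with an antisymmetrised tensor. -/
theorem tin_asym {N : ℕ} (b c : Ten N) (hc : Anti c) :
    tin (asym b) c = (N.factorial : ℂ) * ∑ J, conj (b J) * c J := by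
  unfold tin asym
  have h1 : ∀ J : Fin N → SO, conj (∑ σ : Equiv.Perm (Fin N),
      ((Equiv.Perm.sign σ : ℤ) : ℂ) * b (J ∘ σ)) * c J =
      ∑ σ : Equiv.Perm (Fin N), ((Equiv.Perm.sign σ : ℤ) : ℂ) * (conj (b (J ∘ σ)) * c J) := by
    intro J
    rw [map_sum, Finset.sum_mul]
    refine Finset.sum_congr rfl fun σ _ => ?_
    rw [map_mul, map_intCast]
    ring
  simp only [h1]
  rw [Finset.sum_comm]
  have h2 : ∀ σ : Equiv.Perm (Fin N),
      ∑ J : Fin N → SO, ((Equiv.Perm.sign σ : ℤ) : ℂ) * (conj (b (J ∘ σ)) * c J) =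
      ∑ J, conj (b J) * c J := by
    intro σ
    have h3 := Fintype.sum_equiv (Equiv.arrowCongr σ.symm (Equiv.refl SO))
      (fun J : Fin N → SO => ((Equiv.Perm.sign σ : ℤ) : ℂ) * (conj (b (J ∘ σ)) * c J))
      (fun J => conj (b J) * c J) (fun J => ?_)
    · exact h3
    · have h4 : (Equiv.arrowCongr σ.symm (Equiv.refl SO)) J = J ∘ σ := by
        funext i
        simp [Equiv.arrowCongr]
      rw [h4, hc σ J]
      ring
  simp only [h2]
  rw [Finset.sum_const, Finset.card_univ, Fintype.card_perm, Fintype.card_fin, nsmul_eq_mul]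

theorem norm_sq_eq (z : ℂ) : ‖z‖ ^ 2 = z.re ^ 2 + z.im ^ 2 := by
  rw [Complex.sq_norm, Complex.normSq_apply]
  ring

/-- Anti for curried arrays, five slots. -/
theorem anti5_of {c : Ten 5} (hc : Anti c) (hcore : Core c) (f : ℂ → ℝ)
    (hf : ∀ z, f (-z) = - f z) (hf0 : f 0 = 0) :
    Anti5 (fun p q r s t => f (c ![p, q, r, s, t])) := by
  have sw : ∀ (i j : Fin 5) (hij : i ≠ j) (J J' : Fin 5 → SO), J ∘ Equiv.swap i j = J' →
      f (c J') = - f (c J) := by
    intro i j hij J J' h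
    rw [← h, hc (Equiv.swap i j) J, Equiv.Perm.sign_swap hij]
    simp [hf]
  refine ⟨fun p q r s t => ?_, fun p q r s t => ?_, fun p q r s t => ?_, fun p q r s t => ?_,
    fun p q r s t h1 h2 h3 h4 h5 => ?_, fun p q r s t h1 h2 h3 h4 h5 => ?_⟩
  · refine sw 0 1 (by decide) _ _ ?_
    funext i; fin_cases i <;> rfl
  · refine sw 1 2 (by decide) _ _ ?_
    funext i; fin_cases i <;> rfl
  · refine sw 2 3 (by decide) _ _ ?_
    funext i; fin_cases i <;> rfl
  · refine sw 3 4 (by decide) _ _ ?_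
    funext i; fin_cases i <;> rfl
  · have : c ![p, q, r, s, t] = 0 := by
      by_contra h
      obtain ⟨i, hi⟩ := (hcore _ h).1
      fin_cases i
      · exact h1 hi
      · exact h2 hi
      · exact h3 hi
      · exact h4 hi
      · exact h5 hi
    show f (c ![p, q, r, s, t]) = 0
    rw [this, hf0]
  · have : c ![p, q, r, s, t] = 0 := by
      by_contra h
      obtain ⟨i, hi⟩ := (hcore _ h).2
      fin_cases i
      · exact h1 hi
      · exact h2 hi
      · exact h3 hi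
      · exact h4 hi
      · exact h5 hi
    show f (c ![p, q, r, s, t]) = 0
    rw [this, hf0]

theorem anti4_of {c : Ten 4} (hc : Anti c) (hcore : Core c) (f : ℂ → ℝ)
    (hf : ∀ z, f (-z) = - f z) (hf0 : f 0 = 0) :
    Anti4 (fun p q r s => f (c ![p, q, r, s])) := by
  have sw : ∀ (i j : Fin 4) (hij : i ≠ j) (J J' : Fin 4 → SO), J ∘ Equiv.swap i j = J' →
      f (c J') = - f (c J) := by
    intro i j hij J J' h
    rw [← h, hc (Equiv.swap i j) J, Equiv.Perm.sign_swap hij]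
    simp [hf]
  refine ⟨fun p q r s => ?_, fun p q r s => ?_, fun p q r s => ?_,
    fun p q r s h1 h2 h3 h4 => ?_, fun p q r s h1 h2 h3 h4 => ?_⟩
  · refine sw 0 1 (by decide) _ _ ?_
    funext i; fin_cases i <;> rfl
  · refine sw 1 2 (by decide) _ _ ?_
    funext i; fin_cases i <;> rfl
  · refine sw 2 3 (by decide) _ _ ?_
    funext i; fin_cases i <;> rfl
  · have : c ![p, q, r, s] = 0 := by
      by_contra h
      obtain ⟨i, hi⟩ := (hcore _ h).1
      fin_cases i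
      · exact h1 hi
      · exact h2 hi
      · exact h3 hi
      · exact h4 hi
    show f (c ![p, q, r, s]) = 0
    rw [this, hf0]
  · have : c ![p, q, r, s] = 0 := by
      by_contra h
      obtain ⟨i, hi⟩ := (hcore _ h).2
      fin_cases i
      · exact h1 hi
      · exact h2 hi
      · exact h3 hi
      · exact h4 hi
    show f (c ![p, q, r, s]) = 0
    rw [this, hf0]

/-- Real part array. -/
def re5 (c : Ten 5) (p q r s t : SO) : ℝ := (c ![p, q, r, s, t]).re
/-- Imaginary part array. -/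
def im5 (c : Ten 5) (p q r s t : SO) : ℝ := (c ![p, q, r, s, t]).im
/-- Real part array. -/
def re4 (c : Ten 4) (p q r s : SO) : ℝ := (c ![p, q, r, s]).re
/-- Imaginary part array. -/
def im4 (c : Ten 4) (p q r s : SO) : ℝ := (c ![p, q, r, s]).im

theorem nsq5_eq (c : Ten 5) : nsq c = nr5 (re5 c) + nr5 (im5 c) := by
  have h1 : nsq c = ∑ J : Fin 3 → SO, ∑ p, ∑ q, ‖c (Fin.cons p (Fin.cons q J))‖ ^ 2 := by
    unfold nsq
    rw [sum_cons]
    have : ∀ p, ∑ J : Fin 4 → SO, ‖c (Fin.cons p J)‖ ^ 2 =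
        ∑ J : Fin 3 → SO, ∑ q, ‖c (Fin.cons p (Fin.cons q J))‖ ^ 2 := by
      intro p
      rw [sum_cons, Finset.sum_comm]
    simp only [this]
    rw [Finset.sum_comm]
  rw [h1, sum_fin3]
  unfold nr5 np
  simp only [← Finset.sum_add_distrib]
  refine Finset.sum_congr rfl fun r _ => Finset.sum_congr rfl fun s _ =>
    Finset.sum_congr rfl fun t _ => Finset.sum_congr rfl fun p _ =>
    Finset.sum_congr rfl fun q _ => ?_
  exact norm_sq_eq _

theorem nsq4_eq (c : Ten 4) : nsq c = nr4 (re4 c) + nr4 (im4 c) := by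
  have h1 : nsq c = ∑ J : Fin 2 → SO, ∑ p, ∑ q, ‖c (Fin.cons p (Fin.cons q J))‖ ^ 2 := by
    unfold nsq
    rw [sum_cons]
    have : ∀ p, ∑ J : Fin 3 → SO, ‖c (Fin.cons p J)‖ ^ 2 =
        ∑ J : Fin 2 → SO, ∑ q, ‖c (Fin.cons p (Fin.cons q J))‖ ^ 2 := by
      intro p
      rw [sum_cons, Finset.sum_comm]
    simp only [this]
    rw [Finset.sum_comm]
  rw [h1, sum_fin2]
  unfold nr4 np
  simp only [← Finset.sum_add_distrib]
  refine Finset.sum_congr rfl fun r _ => Finset.sum_congr rfl fun s _ =>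
    Finset.sum_congr rfl fun p _ => Finset.sum_congr rfl fun q _ => ?_
  exact norm_sq_eq _

theorem WF5_eq (c : Ten 5) : WF D c = W5 D (re5 c) + W5 D (im5 c) := by
  unfold WF W5 Vf
  rw [sum_fin3, ← mul_add]
  have e : ((3 : ℕ) + 2 : ℝ) * ((3 : ℕ) + 1) / 2 = 10 := by norm_num
  rw [e]
  congr 1
  simp only [← Finset.sum_add_distrib]
  refine Finset.sum_congr rfl fun r _ => Finset.sum_congr rfl fun s _ =>
    Finset.sum_congr rfl fun t _ => Finset.sum_congr rfl fun p _ =>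
    Finset.sum_congr rfl fun q _ => Finset.sum_congr rfl fun p' _ =>
    Finset.sum_congr rfl fun q' _ => ?_
  rw [← mul_add]
  congr 1
  rw [Complex.mul_re, Complex.conj_re, Complex.conj_im]
  unfold re5 im5
  show (c ![p, q, r, s, t]).re * (c ![p', q', r, s, t]).re -
    -(c ![p, q, r, s, t]).im * (c ![p', q', r, s, t]).im = _
  ring

theorem WF4_eq (c : Ten 4) : WF D c = W4 D (re4 c) + W4 D (im4 c) := by
  unfold WF W4 Vf
  rw [sum_fin2, ← mul_add]
  have e : ((2 : ℕ) + 2 : ℝ) * ((2 : ℕ) + 1) / 2 = 6 := by norm_num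
  rw [e]
  congr 1
  simp only [← Finset.sum_add_distrib]
  refine Finset.sum_congr rfl fun r _ => Finset.sum_congr rfl fun s _ =>
    Finset.sum_congr rfl fun p _ =>
    Finset.sum_congr rfl fun q _ => Finset.sum_congr rfl fun p' _ =>
    Finset.sum_congr rfl fun q' _ => ?_
  rw [← mul_add]
  congr 1
  rw [Complex.mul_re, Complex.conj_re, Complex.conj_im]
  unfold re4 im4
  show (c ![p, q, r, s]).re * (c ![p', q', r, s]).re -
    -(c ![p, q, r, s]).im * (c ![p', q', r, s]).im = _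
  ring

theorem sum_ind {N : ℕ} (I : Fin N → SO) (c : Ten N) : ∑ J, ind I J * c J = c I := by
  unfold ind
  simp

theorem conj_ind {N : ℕ} (I J : Fin N → SO) : conj (ind I J) = ind I J := by
  unfold ind
  split_ifs <;> simp

/-- The coefficient functional of a ground tensor. -/
theorem tin_C5 (e : Fin 5) (s : Fin 2) (c : Ten 5) (hc : Anti c) :
    tin (C5 e s) c = (120 * eta5 : ℝ) * (c (tup5 1 e s) +
      (t5 : ℂ) * ∑ a : Fin 5, if 2 ≤ a ∧ a ≠ e then c (tup5 a e s) else 0) := by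
  unfold C5
  rw [tin_asym _ _ hc]
  have h1 : ∀ J : Fin 5 → SO, conj ((eta5 : ℂ) * (ind (tup5 1 e s) J +
      (t5 : ℂ) * ∑ a : Fin 5, if 2 ≤ a ∧ a ≠ e then ind (tup5 a e s) J else 0)) * c J =
      (eta5 : ℂ) * (ind (tup5 1 e s) J * c J +
      (t5 : ℂ) * ∑ a : Fin 5, if 2 ≤ a ∧ a ≠ e then ind (tup5 a e s) J * c J else 0) := by
    intro J
    simp only [map_mul, map_add, map_sum, Complex.conj_ofReal, conj_ind, apply_ite conj, map_zero]
    rw [mul_assoc, add_mul, mul_assoc, Finset.sum_mul]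
    congr 3
    refine Finset.sum_congr rfl fun a _ => ?_
    split_ifs <;> simp
  simp only [h1]
  rw [← Finset.mul_sum, Finset.sum_add_distrib, sum_ind, ← Finset.mul_sum, Finset.sum_comm]
  have h2 : ∀ a : Fin 5, ∑ J : Fin 5 → SO,
      (if 2 ≤ a ∧ a ≠ e then ind (tup5 a e s) J * c J else 0) =
      if 2 ≤ a ∧ a ≠ e then c (tup5 a e s) else 0 := by
    intro a
    by_cases h : 2 ≤ a ∧ a ≠ e
    · simp only [if_pos h, sum_ind]
    · simp only [if_neg h]
      simp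
  simp only [h2]
  have h3 : (Nat.factorial 5 : ℂ) = 120 := by norm_num [Nat.factorial]
  rw [h3]
  push_cast
  ring

theorem tin_C4 (c : Ten 4) (hc : Anti c) :
    tin C4 c = (24 * eta4 : ℝ) * (c (tup4 1) +
      (t4 : ℂ) * ∑ a : Fin 5, if 2 ≤ a then c (tup4 a) else 0) := by
  unfold C4
  rw [tin_asym _ _ hc]
  have h1 : ∀ J : Fin 4 → SO, conj ((eta4 : ℂ) * (ind (tup4 1) J +
      (t4 : ℂ) * ∑ a : Fin 5, if 2 ≤ a then ind (tup4 a) J else 0)) * c J =
      (eta4 : ℂ) * (ind (tup4 1) J * c J +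
      (t4 : ℂ) * ∑ a : Fin 5, if 2 ≤ a then ind (tup4 a) J * c J else 0) := by
    intro J
    simp only [map_mul, map_add, map_sum, Complex.conj_ofReal, conj_ind, apply_ite conj, map_zero]
    rw [mul_assoc, add_mul, mul_assoc, Finset.sum_mul]
    congr 3
    refine Finset.sum_congr rfl fun a _ => ?_
    split_ifs <;> simp
  simp only [h1]
  rw [← Finset.mul_sum, Finset.sum_add_distrib, sum_ind, ← Finset.mul_sum, Finset.sum_comm]
  have h2 : ∀ a : Fin 5, ∑ J : Fin 4 → SO,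
      (if 2 ≤ a then ind (tup4 a) J * c J else 0) =
      if 2 ≤ a then c (tup4 a) else 0 := by
    intro a
    by_cases h : 2 ≤ a
    · simp only [h, if_true, sum_ind]
    · simp only [h, if_false]
      simp
  simp only [h2]
  have h3 : (Nat.factorial 4 : ℂ) = 24 := by norm_num [Nat.factorial]
  rw [h3]
  push_cast
  ring

theorem eta5_sq : eta5 ^ 2 = 1 / (120 * (1 + 2 * t5 ^ 2)) := by
  unfold eta5
  rw [div_pow, one_pow, Real.sq_sqrt (by positivity)]

theorem eta4_sq : eta4 ^ 2 = 1 / (24 * (1 + 3 * t4 ^ 2)) := by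
  unfold eta4
  rw [div_pow, one_pow, Real.sq_sqrt (by positivity)]

theorem antiS_of {c : SO → SO → SO → SO → SO → ℝ} (h : Anti5 c) : AntiS (sh5 c) :=
  ⟨fun _ _ _ => h.s3 _ _ _ _ _, fun _ _ _ => h.s4 _ _ _ _ _⟩

theorem le_aux : ∀ (a : Fin 4) (i : Fin 3),
    ((2 : Fin 5) ≤ a.succ ∧ a.succ ≠ i.succ.succ) ↔ (a ≠ 0 ∧ a ≠ i.succ) := by
  decide

/-- Squared coefficient with respect to a ground tensor. -/
theorem norm_tin_C5 (i : Fin 3) (s : Fin 2) (c : Ten 5) (hc : Anti c) :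
    ‖tin (C5 i.succ.succ s) c‖ ^ 2 = 120 / (1 + 2 * t5 ^ 2) *
      (gS (sh5 (re5 c)) i.succ s ^ 2 + gS (sh5 (im5 c)) i.succ s ^ 2) := by
  have hs : (0 : ℝ) < 1 + 2 * t5 ^ 2 := by positivity
  rw [tin_C5 _ _ _ hc, norm_mul, mul_pow, Complex.norm_real, Real.norm_eq_abs, sq_abs, mul_pow,
    eta5_sq, norm_sq_eq]
  have h0 : (120 : ℝ) ^ 2 * (1 / (120 * (1 + 2 * t5 ^ 2))) = 120 / (1 + 2 * t5 ^ 2) := by
    field_simp
  rw [h0]
  have hre : (c (tup5 1 i.succ.succ s) + (t5 : ℂ) * ∑ a : Fin 5,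
      if 2 ≤ a ∧ a ≠ i.succ.succ then c (tup5 a i.succ.succ s) else 0).re =
      gS (sh5 (re5 c)) i.succ s := by
    unfold gS sh5 re5
    rw [Complex.add_re, Complex.re_ofReal_mul, Complex.re_sum]
    congr 1
    congr 1
    rw [Fin.sum_univ_succ]
    rw [if_neg (by simp), Complex.zero_re, zero_add]
    refine Finset.sum_congr rfl fun a _ => ?_
    have e := le_aux a i
    by_cases h : a ≠ 0 ∧ a ≠ i.succ
    · rw [if_pos (e.2 h), if_pos h]; rfl
    · rw [if_neg (fun h' => h (e.1 h')), if_neg h]; rfl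
  have him : (c (tup5 1 i.succ.succ s) + (t5 : ℂ) * ∑ a : Fin 5,
      if 2 ≤ a ∧ a ≠ i.succ.succ then c (tup5 a i.succ.succ s) else 0).im =
      gS (sh5 (im5 c)) i.succ s := by
    unfold gS sh5 im5
    rw [Complex.add_im, Complex.im_ofReal_mul, Complex.im_sum]
    congr 1
    congr 1
    rw [Fin.sum_univ_succ]
    rw [if_neg (by simp), Complex.zero_im, zero_add]
    refine Finset.sum_congr rfl fun a _ => ?_
    have e := le_aux a i
    by_cases h : a ≠ 0 ∧ a ≠ i.succ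
    · rw [if_pos (e.2 h), if_pos h]; rfl
    · rw [if_neg (fun h' => h (e.1 h')), if_neg h]; rfl
  rw [hre, him]

theorem norm_tin_C4 (c : Ten 4) (hc : Anti c) :
    ‖tin C4 c‖ ^ 2 = 24 / (1 + 3 * t4 ^ 2) *
      (gT (sh4 (re4 c)) ^ 2 + gT (sh4 (im4 c)) ^ 2) := by
  have hs : (0 : ℝ) < 1 + 3 * t4 ^ 2 := by positivity
  rw [tin_C4 _ hc, norm_mul, mul_pow, Complex.norm_real, Real.norm_eq_abs, sq_abs, mul_pow,
    eta4_sq, norm_sq_eq]
  have h0 : (24 : ℝ) ^ 2 * (1 / (24 * (1 + 3 * t4 ^ 2))) = 24 / (1 + 3 * t4 ^ 2) := by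
    field_simp
  rw [h0]
  have hre : (c (tup4 1) + (t4 : ℂ) * ∑ a : Fin 5, if 2 ≤ a then c (tup4 a) else 0).re =
      gT (sh4 (re4 c)) := by
    unfold gT sh4 re4
    rw [Complex.add_re, Complex.re_ofReal_mul, Complex.re_sum]
    congr 1
    congr 1
    rw [Fin.sum_univ_succ, if_neg (by simp), Complex.zero_re, zero_add]
    refine Finset.sum_congr rfl fun a _ => ?_
    have e : ((2 : Fin 5) ≤ a.succ) ↔ a ≠ 0 := by
      revert a; decide
    by_cases h : a ≠ 0
    · rw [if_pos (e.2 h), if_pos h]; rfl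
    · rw [if_neg (fun h' => h (e.1 h')), if_neg h]; rfl
  have him : (c (tup4 1) + (t4 : ℂ) * ∑ a : Fin 5, if 2 ≤ a then c (tup4 a) else 0).im =
      gT (sh4 (im4 c)) := by
    unfold gT sh4 im4
    rw [Complex.add_im, Complex.im_ofReal_mul, Complex.im_sum]
    congr 1
    congr 1
    rw [Fin.sum_univ_succ, if_neg (by simp), Complex.zero_im, zero_add]
    refine Finset.sum_congr rfl fun a _ => ?_
    have e : ((2 : Fin 5) ≤ a.succ) ↔ a ≠ 0 := by
      revert a; decide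
    by_cases h : a ≠ 0
    · rw [if_pos (e.2 h), if_pos h]; rfl
    · rw [if_neg (fun h' => h (e.1 h')), if_neg h]; rfl
  rw [hre, him]

/-- **Spectral gap of the first-order problem of the atom.** -/
theorem gap5 : Gap5 := by
  intro D T c hc hcore
  have hre : Anti5 (re5 c) := anti5_of hc hcore Complex.re (fun z => Complex.neg_re z) rfl
  have him : Anti5 (im5 c) := anti5_of hc hcore Complex.im (fun z => Complex.neg_im z) rfl
  have hs : (0 : ℝ) < 1 + 2 * t5 ^ 2 := by positivity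
  have q1 := QS3_ge (antiS_of hre)
  have q2 := QS3_ge (antiS_of him)
  rw [WF5_eq, nsq5_eq, W5_eq T hre, W5_eq T him, nr5_eq hre, nr5_eq him]
  have e2 : ∀ s : Fin 2, ‖tin (C5 2 s) c‖ ^ 2 = 120 / (1 + 2 * t5 ^ 2) *
      (gS (sh5 (re5 c)) 1 s ^ 2 + gS (sh5 (im5 c)) 1 s ^ 2) := fun s => norm_tin_C5 0 s c hc
  have e3 : ∀ s : Fin 2, ‖tin (C5 3 s) c‖ ^ 2 = 120 / (1 + 2 * t5 ^ 2) *
      (gS (sh5 (re5 c)) 2 s ^ 2 + gS (sh5 (im5 c)) 2 s ^ 2) := fun s => norm_tin_C5 1 s c hc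
  have e4 : ∀ s : Fin 2, ‖tin (C5 4 s) c‖ ^ 2 = 120 / (1 + 2 * t5 ^ 2) *
      (gS (sh5 (re5 c)) 3 s ^ 2 + gS (sh5 (im5 c)) 3 s ^ 2) := fun s => norm_tin_C5 2 s c hc
  rw [Finset.sum_insert (by decide), Finset.sum_insert (by decide), Finset.sum_singleton]
  simp only [Fin.sum_univ_two, e2, e3, e4]
  have e6 : ∀ x : ℝ, 6 * x / (1 + 2 * t5 ^ 2) = 6 * (1 / (1 + 2 * t5 ^ 2)) * x := fun x => by
    ring
  have e120 : 120 / (1 + 2 * t5 ^ 2) = 120 * (1 / (1 + 2 * t5 ^ 2)) := by ring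
  rw [e6] at q1 q2
  rw [e120]
  nlinarith [q1, q2]

/-- **Spectral gap of the first-order problem of the ion.** -/
theorem gap4 : Gap4 := by
  intro D T c hc hcore
  have hre : Anti4 (re4 c) := anti4_of hc hcore Complex.re (fun z => Complex.neg_re z) rfl
  have him : Anti4 (im4 c) := anti4_of hc hcore Complex.im (fun z => Complex.neg_im z) rfl
  have hs : (0 : ℝ) < 1 + 3 * t4 ^ 2 := by positivity
  have q1 := QS2_ge (u := sh4 (re4 c)) (fun _ _ => hre.s3 _ _ _ _)
  have q2 := QS2_ge (u := sh4 (im4 c)) (fun _ _ => him.s3 _ _ _ _)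
  rw [WF4_eq, nsq4_eq, W4_eq T hre, W4_eq T him, nr4_eq hre, nr4_eq him, norm_tin_C4 c hc]
  have e6 : ∀ x : ℝ, 2 * x / (1 + 3 * t4 ^ 2) = 2 * (1 / (1 + 3 * t4 ^ 2)) * x := fun x => by
    ring
  have e24 : 24 / (1 + 3 * t4 ^ 2) = 24 * (1 / (1 + 3 * t4 ^ 2)) := by ring
  rw [e6] at q1 q2
  rw [e24]
  nlinarith [q1, q2]

end

end Vale.Agent.P363.H979.CI
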