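import Mathlib.Analysis.Real.Sqrt
import Mathlib.Tactic.Linarith
import Mathlib.Tactic.NormNum
import Mathlib.Tactic.Ring
import Mathlib.Tactic.FieldSimp
import Mathlib.Tactic.Positivity

/-!
The 3 x 3 and 4 x 4 blocks of the first order perturbation problem in the hydrogenic `n = 2`
shell.
-/

namespace Vale.Agent.P363.H979.CI

noncomputable section

/-- First diagonal entry `s² z` of the ground block for three shell electrons. -/
def A5 : ℝ := 1435609 / 839808
/-- Second diagonal entry `x² z`. -/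
def B5 : ℝ := 1357657 / 699840
/-- Exchange integral `(sp|sp)`. -/
def be : ℝ := 15 / 512
/-- Exchange integral `(xy|xy)`. -/
def ga : ℝ := 27 / 2560
/-- First diagonal entry `s²` of the ground block for two shell electrons. -/
def A4 : ℝ := 353093 / 373248
/-- Second diagonal entry `x²`. -/
def B4 : ℝ := 19025941 / 16796160

/-- Discriminant root for three shell electrons. -/
def s5 : ℝ := Real.sqrt ((B5 + ga - A5) ^ 2 + 8 * be ^ 2)
/-- Lowest shell eigenvalue for three shell electrons. -/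
def w5 : ℝ := (A5 + B5 + ga - s5) / 2
/-- Mixing coefficient of `x² z + y² z` for three shell electrons. -/
def t5 : ℝ := (w5 - A5) / (2 * be)
/-- Discriminant root for two shell electrons. -/
def s4 : ℝ := Real.sqrt ((B4 + 2 * ga - A4) ^ 2 + 12 * be ^ 2)
/-- Lowest shell eigenvalue for two shell electrons. -/
def w4 : ℝ := (A4 + B4 + 2 * ga - s4) / 2
/-- Mixing coefficient of `x² + y² + z²` for two shell electrons. -/
def t4 : ℝ := (w4 - A4) / (3 * be)

theorem s5_sq : s5 ^ 2 = (B5 + ga - A5) ^ 2 + 8 * be ^ 2 := by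
  unfold s5
  exact Real.sq_sqrt (by positivity)

theorem s5_bounds : 0.2548 < s5 ∧ s5 < 0.2549 := by
  unfold s5
  constructor
  · apply Real.lt_sqrt_of_sq_lt
    unfold A5 B5 ga be
    norm_num
  · rw [Real.sqrt_lt' (by norm_num)]
    unfold A5 B5 ga be
    norm_num

theorem s4_sq : s4 ^ 2 = (B4 + 2 * ga - A4) ^ 2 + 12 * be ^ 2 := by
  unfold s4
  exact Real.sq_sqrt (by positivity)

theorem s4_bounds : 0.2313 < s4 ∧ s4 < 0.23131 := by
  unfold s4
  constructor
  · apply Real.lt_sqrt_of_sq_lt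
    unfold A4 B4 ga be
    norm_num
  · rw [Real.sqrt_lt' (by norm_num)]
    unfold A4 B4 ga be
    norm_num

theorem w5_bounds : 1.7025 < w5 ∧ w5 < 1.7026 := by
  have := s5_bounds
  unfold w5
  unfold A5 B5 ga
  constructor <;> norm_num <;> linarith [this.1, this.2]

theorem w4_bounds : 0.9342 < w4 ∧ w4 < 0.9343 := by
  have := s4_bounds
  unfold w4
  unfold A4 B4 ga
  constructor <;> norm_num <;> linarith [this.1, this.2]

theorem t5_neg : t5 < 0 := by
  have := w5_bounds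
  unfold t5
  apply div_neg_of_neg_of_pos
  · unfold A5; norm_num; linarith [this.2]
  · unfold be; norm_num

theorem t4_neg : t4 < 0 := by
  have := w4_bounds
  unfold t4
  apply div_neg_of_neg_of_pos
  · unfold A4; norm_num; linarith [this.2]
  · unfold be; norm_num

theorem t5_eq1 : 2 * be * t5 = w5 - A5 := by
  unfold t5
  have : (2 * be : ℝ) ≠ 0 := by unfold be; norm_num
  exact mul_div_cancel₀ _ this

theorem w5_quad : (w5 - A5) * (w5 - B5 - ga) = 2 * be ^ 2 := by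
  have := s5_sq
  unfold w5
  linarith [this]

theorem t5_eq2 : (w5 - B5 - ga) * t5 = be := by
  have h1 := w5_quad
  have hb : (2 * be : ℝ) ≠ 0 := by unfold be; norm_num
  have : 2 * be * ((w5 - B5 - ga) * t5) = 2 * be * be := by
    calc 2 * be * ((w5 - B5 - ga) * t5) = (w5 - B5 - ga) * (2 * be * t5) := by ring
      _ = (w5 - B5 - ga) * (w5 - A5) := by rw [t5_eq1]
      _ = 2 * be ^ 2 := by rw [← h1]; ring
      _ = 2 * be * be := by ring
  exact mul_left_cancel₀ hb this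

theorem t4_eq1 : 3 * be * t4 = w4 - A4 := by
  unfold t4
  have : (3 * be : ℝ) ≠ 0 := by unfold be; norm_num
  exact mul_div_cancel₀ _ this

theorem w4_quad : (w4 - A4) * (w4 - B4 - 2 * ga) = 3 * be ^ 2 := by
  have := s4_sq
  unfold w4
  linarith [this]

theorem t4_eq2 : (w4 - B4 - 2 * ga) * t4 = be := by
  have h1 := w4_quad
  have hb : (3 * be : ℝ) ≠ 0 := by unfold be; norm_num
  have : 3 * be * ((w4 - B4 - 2 * ga) * t4) = 3 * be * be := by
    calc 3 * be * ((w4 - B4 - 2 * ga) * t4) = (w4 - B4 - 2 * ga) * (3 * be * t4) := by ring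
      _ = (w4 - B4 - 2 * ga) * (w4 - A4) := by rw [t4_eq1]
      _ = 3 * be ^ 2 := by rw [← h1]; ring
      _ = 3 * be * be := by ring
  exact mul_left_cancel₀ hb this

theorem A5_eq : A5 = w5 - 2 * (w5 - B5 - ga) * t5 ^ 2 := by
  have h1 := t5_eq1
  have h2 := t5_eq2
  rw [← h2] at h1
  linarith

theorem A4_eq : A4 = w4 - 3 * (w4 - B4 - 2 * ga) * t4 ^ 2 := by
  have h1 := t4_eq1
  have h2 := t4_eq2
  rw [← h2] at h1
  linarith

/-- Spectral decomposition of a 3 x 3 block. -/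
theorem block3_gen (w m t g x y z : ℝ) :
    (w - 2 * m * t ^ 2) * x ^ 2 + (w - g - m) * (y ^ 2 + z ^ 2) +
      2 * (m * t) * (x * y + x * z) + 2 * g * (y * z) - w * (x ^ 2 + y ^ 2 + z ^ 2) =
    -m * ((y + z - 2 * t * x) ^ 2 / 2) + (-m - 2 * g) * ((y - z) ^ 2 / 2) := by
  ring

theorem norm3_gen (t x y z : ℝ) :
    x ^ 2 + y ^ 2 + z ^ 2 - (x + t * y + t * z) ^ 2 / (1 + 2 * t ^ 2) =
    (y + z - 2 * t * x) ^ 2 / (2 * (1 + 2 * t ^ 2)) + (y - z) ^ 2 / 2 := by
  have hn : (1 + 2 * t ^ 2) ≠ 0 := by positivity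
  field_simp
  ring

/-- Spectral decomposition of a 4 x 4 block. -/
theorem block4_gen (w m t g a x y z : ℝ) :
    (w - 3 * m * t ^ 2) * a ^ 2 + (w - 2 * g - m) * (x ^ 2 + y ^ 2 + z ^ 2) +
      2 * (m * t) * (a * x + a * y + a * z) + 2 * g * (x * y + x * z + y * z) -
      w * (a ^ 2 + x ^ 2 + y ^ 2 + z ^ 2) =
    -m * ((x + y + z - 3 * t * a) ^ 2 / 3) +
      (-m - 3 * g) * (((x - y) ^ 2 + (x - z) ^ 2 + (y - z) ^ 2) / 3) := by
  ring

theorem norm4_gen (t a x y z : ℝ) :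
    a ^ 2 + x ^ 2 + y ^ 2 + z ^ 2 - (a + t * x + t * y + t * z) ^ 2 / (1 + 3 * t ^ 2) =
    (x + y + z - 3 * t * a) ^ 2 / (3 * (1 + 3 * t ^ 2)) +
      ((x - y) ^ 2 + (x - z) ^ 2 + (y - z) ^ 2) / 3 := by
  have hn : (1 + 3 * t ^ 2) ≠ 0 := by positivity
  field_simp
  ring

/-- Ground block, three shell electrons: spectral gap at least `1/20`. -/
theorem block5 (x y z : ℝ) :
    w5 * (x ^ 2 + y ^ 2 + z ^ 2) +
      1 / 20 * (x ^ 2 + y ^ 2 + z ^ 2 - (x + t5 * y + t5 * z) ^ 2 / (1 + 2 * t5 ^ 2)) ≤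
    A5 * x ^ 2 + B5 * (y ^ 2 + z ^ 2) + 2 * be * (x * y + x * z) + 2 * ga * (y * z) := by
  have hn : 0 < 1 + 2 * t5 ^ 2 := by positivity
  have hw := w5_bounds
  set m : ℝ := w5 - B5 - ga with hm
  have hA : A5 = w5 - 2 * m * t5 ^ 2 := A5_eq
  have hB : B5 = w5 - ga - m := by rw [hm]; ring
  have hbe : be = m * t5 := t5_eq2.symm
  have e1 : 1 / 20 ≤ -m - 2 * ga := by
    rw [hm]; unfold B5 ga; norm_num; linarith [hw.2]
  have e2 : 1 / 20 ≤ -m := by
    rw [hm]; unfold B5 ga; norm_num; linarith [hw.2]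
  have h1 := block3_gen w5 m t5 ga x y z
  rw [norm3_gen]
  rw [hA, hB, hbe]
  have e3 : 1 / 20 * ((y + z - 2 * t5 * x) ^ 2 / (2 * (1 + 2 * t5 ^ 2))) ≤
      -m * ((y + z - 2 * t5 * x) ^ 2 / 2) := by
    apply mul_le_mul e2 _ (by positivity) (by linarith)
    apply div_le_div_of_nonneg_left (by positivity) (by positivity)
    nlinarith [sq_nonneg t5]
  have e4 : 1 / 20 * ((y - z) ^ 2 / 2) ≤ (-m - 2 * ga) * ((y - z) ^ 2 / 2) :=
    mul_le_mul_of_nonneg_right e1 (by positivity)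
  linarith

/-- Ground block, two shell electrons: spectral gap at least `1/20`. -/
theorem block4 (a x y z : ℝ) :
    w4 * (a ^ 2 + x ^ 2 + y ^ 2 + z ^ 2) +
      1 / 20 * (a ^ 2 + x ^ 2 + y ^ 2 + z ^ 2 -
        (a + t4 * x + t4 * y + t4 * z) ^ 2 / (1 + 3 * t4 ^ 2)) ≤
    A4 * a ^ 2 + B4 * (x ^ 2 + y ^ 2 + z ^ 2) + 2 * be * (a * x + a * y + a * z) +
      2 * ga * (x * y + x * z + y * z) := by
  have hn : 0 < 1 + 3 * t4 ^ 2 := by positivity
  have hw := w4_bounds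
  set m : ℝ := w4 - B4 - 2 * ga with hm
  have hA : A4 = w4 - 3 * m * t4 ^ 2 := A4_eq
  have hB : B4 = w4 - 2 * ga - m := by rw [hm]; ring
  have hbe : be = m * t4 := t4_eq2.symm
  have e1 : 1 / 20 ≤ -m - 3 * ga := by
    rw [hm]; unfold B4 ga; norm_num; linarith [hw.2]
  have e2 : 1 / 20 ≤ -m := by
    rw [hm]; unfold B4 ga; norm_num; linarith [hw.2]
  have h1 := block4_gen w4 m t4 ga a x y z
  rw [norm4_gen]
  rw [hA, hB, hbe]
  have e3 : 1 / 20 * ((x + y + z - 3 * t4 * a) ^ 2 / (3 * (1 + 3 * t4 ^ 2))) ≤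
      -m * ((x + y + z - 3 * t4 * a) ^ 2 / 3) := by
    apply mul_le_mul e2 _ (by positivity) (by linarith)
    apply div_le_div_of_nonneg_left (by positivity) (by positivity)
    nlinarith [sq_nonneg t4]
  have e4 : 1 / 20 * (((x - y) ^ 2 + (x - z) ^ 2 + (y - z) ^ 2) / 3) ≤
      (-m - 3 * ga) * (((x - y) ^ 2 + (x - z) ^ 2 + (y - z) ^ 2) / 3) :=
    mul_le_mul_of_nonneg_right e1 (by positivity)
  linarith

end

end Vale.Agent.P363.H979.CI
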