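import Vale.Agent.P363.H979.CI.Main

/-!
Properties of the ground tensors `C5 e s` and `C4`: antisymmetry, support, values, orthonormality.
-/

namespace Vale.Agent.P363.H979.CI

open scoped ComplexConjugate

noncomputable section

theorem anti_asym {N : ℕ} (b : Ten N) : Anti (asym b) := by
  intro τ J
  unfold asym
  rw [Finset.mul_sum]
  refine Fintype.sum_equiv (Equiv.mulLeft τ) _ _ fun σ => ?_
  have h1 : (J ∘ τ) ∘ σ = J ∘ (τ * σ : Equiv.Perm (Fin N)) := rfl
  simp only [Equiv.coe_mulLeft]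
  rw [h1, Equiv.Perm.sign_mul, ← mul_assoc]
  congr 1
  have h2 : ((Equiv.Perm.sign τ : ℤ) : ℂ) * ((Equiv.Perm.sign τ : ℤ) : ℂ) = 1 := by
    rw [← Int.cast_mul, ← Units.val_mul, Int.units_mul_self]
    simp
  push_cast
  rw [← mul_assoc, h2, one_mul]

theorem anti_C5 (e : Fin 5) (s : Fin 2) : Anti (C5 e s) := anti_asym _

theorem anti_C4 : Anti C4 := anti_asym _

theorem asym_ne_zero {N : ℕ} {b : Ten N} {J : Fin N → SO} (h : asym b J ≠ 0) :
    ∃ σ : Equiv.Perm (Fin N), b (J ∘ σ) ≠ 0 := by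
  by_contra hcon
  push Not at hcon
  apply h
  unfold asym
  refine Finset.sum_eq_zero fun σ _ => ?_
  rw [hcon σ, mul_zero]

theorem core_C5 (e : Fin 5) (s : Fin 2) : Core (C5 e s) := by
  intro J hJ
  obtain ⟨σ, hσ⟩ := asym_ne_zero hJ
  have key : ∀ a : Fin 5, J ∘ σ = tup5 a e s →
      (∃ i, J i = ((0 : Fin 5), (0 : Fin 2))) ∧ ∃ i, J i = ((0 : Fin 5), (1 : Fin 2)) := by
    intro a h
    exact ⟨⟨σ 0, congrFun h 0⟩, ⟨σ 1, congrFun h 1⟩⟩
  by_cases h1 : J ∘ σ = tup5 1 e s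
  · exact key 1 h1
  · by_contra hcon
    apply hσ
    have h2 : ∀ a : Fin 5, ind (tup5 a e s) (J ∘ σ) = 0 := by
      intro a
      unfold ind
      rw [if_neg (fun h => hcon (key a h))]
    simp [h2]

theorem core_C4 : Core C4 := by
  intro J hJ
  obtain ⟨σ, hσ⟩ := asym_ne_zero hJ
  have key : ∀ a : Fin 5, J ∘ σ = tup4 a →
      (∃ i, J i = ((0 : Fin 5), (0 : Fin 2))) ∧ ∃ i, J i = ((0 : Fin 5), (1 : Fin 2)) := by
    intro a h
    exact ⟨⟨σ 0, congrFun h 0⟩, ⟨σ 1, congrFun h 1⟩⟩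
  by_contra hcon
  apply hσ
  have h2 : ∀ a : Fin 5, ind (tup4 a) (J ∘ σ) = 0 := by
    intro a
    unfold ind
    rw [if_neg (fun h => hcon (key a h))]
  simp [h2]

/-- Value of an antisymmetrised indicator outside of its support. -/
theorem asym_ind_zero {N : ℕ} (I J : Fin N → SO) (h : ∃ i, ∀ j, J i ≠ I j) :
    asym (ind I) J = 0 := by
  obtain ⟨i, hi⟩ := h
  unfold asym
  refine Finset.sum_eq_zero fun σ _ => ?_
  have : J ∘ σ ≠ I := by
    intro h
    have := congrFun h (σ.symm i)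
    simp only [Function.comp_apply, Equiv.apply_symm_apply] at this
    exact hi _ this
  unfold ind
  rw [if_neg this, mul_zero]

theorem asym_ind_self {N : ℕ} (I : Fin N → SO) (h : Function.Injective I) :
    asym (ind I) I = 1 := by
  unfold asym
  rw [Finset.sum_eq_single (1 : Equiv.Perm (Fin N))]
  · unfold ind
    rw [if_pos (by rfl)]
    simp
  · intro σ _ hσ
    unfold ind
    rw [if_neg, mul_zero]
    intro hI
    apply hσ
    ext i
    have := congrFun hI i
    simp only [Function.comp_apply] at this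
    rw [h this]
    rfl
  · intro h
    exact absurd (Finset.mem_univ _) h

/-- An antisymmetric tensor vanishes on tuples with a repeated label. -/
theorem Anti.eq_zero {N : ℕ} {c : Ten N} (hc : Anti c) (J : Fin N → SO) {i j : Fin N}
    (hij : i ≠ j) (h : J i = J j) : c J = 0 := by
  have h1 := hc (Equiv.swap i j) J
  have h2 : J ∘ Equiv.swap i j = J := by
    funext k
    simp only [Function.comp_apply]
    rcases eq_or_ne k i with rfl | hki
    · rw [Equiv.swap_apply_left, h]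
    · rcases eq_or_ne k j with rfl | hkj
      · rw [Equiv.swap_apply_right, h]
      · rw [Equiv.swap_apply_of_ne_of_ne hki hkj]
  rw [h2, Equiv.Perm.sign_swap hij] at h1
  have h3 : c J = - c J := by simpa using h1
  linear_combination h3 / 2

/-- Expansion of the atomic ground tensor. -/
theorem C5_eq (e : Fin 5) (s : Fin 2) (J : Fin 5 → SO) :
    C5 e s J = (eta5 : ℂ) * (asym (ind (tup5 1 e s)) J +
      (t5 : ℂ) * ∑ a : Fin 5, if 2 ≤ a ∧ a ≠ e then asym (ind (tup5 a e s)) J else 0) := by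
  unfold C5 asym
  have h1 : ∀ σ : Equiv.Perm (Fin 5), ((Equiv.Perm.sign σ : ℤ) : ℂ) *
      ((eta5 : ℂ) * (ind (tup5 1 e s) (J ∘ σ) +
      (t5 : ℂ) * ∑ a : Fin 5, if 2 ≤ a ∧ a ≠ e then ind (tup5 a e s) (J ∘ σ) else 0)) =
      (eta5 : ℂ) * (((Equiv.Perm.sign σ : ℤ) : ℂ) * ind (tup5 1 e s) (J ∘ σ) +
      (t5 : ℂ) * ∑ a : Fin 5, if 2 ≤ a ∧ a ≠ e then
        ((Equiv.Perm.sign σ : ℤ) : ℂ) * ind (tup5 a e s) (J ∘ σ) else 0) := by
    intro σ
    have h2 : ∑ a : Fin 5, (if 2 ≤ a ∧ a ≠ e then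
        ((Equiv.Perm.sign σ : ℤ) : ℂ) * ind (tup5 a e s) (J ∘ σ) else 0) =
        ((Equiv.Perm.sign σ : ℤ) : ℂ) * ∑ a : Fin 5,
          if 2 ≤ a ∧ a ≠ e then ind (tup5 a e s) (J ∘ σ) else 0 := by
      rw [Finset.mul_sum]
      refine Finset.sum_congr rfl fun a _ => ?_
      split_ifs <;> simp
    rw [h2]
    ring
  simp only [h1]
  rw [← Finset.mul_sum, Finset.sum_add_distrib, ← Finset.mul_sum, Finset.sum_comm]
  congr 3
  refine Finset.sum_congr rfl fun a _ => ?_
  by_cases h : 2 ≤ a ∧ a ≠ e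
  · simp only [if_pos h]
  · simp only [if_neg h, Finset.sum_const_zero]

theorem C4_eq (J : Fin 4 → SO) :
    C4 J = (eta4 : ℂ) * (asym (ind (tup4 1)) J +
      (t4 : ℂ) * ∑ a : Fin 5, if 2 ≤ a then asym (ind (tup4 a)) J else 0) := by
  unfold C4 asym
  have h1 : ∀ σ : Equiv.Perm (Fin 4), ((Equiv.Perm.sign σ : ℤ) : ℂ) *
      ((eta4 : ℂ) * (ind (tup4 1) (J ∘ σ) +
      (t4 : ℂ) * ∑ a : Fin 5, if 2 ≤ a then ind (tup4 a) (J ∘ σ) else 0)) =
      (eta4 : ℂ) * (((Equiv.Perm.sign σ : ℤ) : ℂ) * ind (tup4 1) (J ∘ σ) +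
      (t4 : ℂ) * ∑ a : Fin 5, if 2 ≤ a then
        ((Equiv.Perm.sign σ : ℤ) : ℂ) * ind (tup4 a) (J ∘ σ) else 0) := by
    intro σ
    have h2 : ∑ a : Fin 5, (if 2 ≤ a then
        ((Equiv.Perm.sign σ : ℤ) : ℂ) * ind (tup4 a) (J ∘ σ) else 0) =
        ((Equiv.Perm.sign σ : ℤ) : ℂ) * ∑ a : Fin 5,
          if 2 ≤ a then ind (tup4 a) (J ∘ σ) else 0 := by
      rw [Finset.mul_sum]
      refine Finset.sum_congr rfl fun a _ => ?_
      split_ifs <;> simp
    rw [h2]
    ring
  simp only [h1]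
  rw [← Finset.mul_sum, Finset.sum_add_distrib, ← Finset.mul_sum, Finset.sum_comm]
  congr 3
  refine Finset.sum_congr rfl fun a _ => ?_
  by_cases h : 2 ≤ a
  · simp only [if_pos h]
  · simp only [if_neg h, Finset.sum_const_zero]

/-- Admissible doubly occupied labels for the open label `e`. -/
def adm (e a : Fin 5) : Prop := a = 1 ∨ (2 ≤ a ∧ a ≠ e)

instance (e a : Fin 5) : Decidable (adm e a) := by unfold adm; infer_instance

/-- Coefficient of the doubly occupied label. -/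
def co5 (a : Fin 5) : ℝ := if a = 1 then eta5 else eta5 * t5

/-- Coefficient of the doubly occupied label, ion. -/
def co4 (a : Fin 5) : ℝ := if a = 1 then eta4 else eta4 * t4

theorem C5_eq' (e : Fin 5) (s : Fin 2) (J : Fin 5 → SO) :
    C5 e s J = ∑ a : Fin 5, if adm e a then (co5 a : ℂ) * asym (ind (tup5 a e s)) J else 0 := by
  rw [C5_eq, Fin.sum_univ_five, Fin.sum_univ_five]
  have h0 : ¬ adm e 0 := by unfold adm; revert e; decide
  have h1 : adm e 1 := by left; rfl
  have h2 : adm e 2 ↔ (2 ≤ (2 : Fin 5) ∧ 2 ≠ e) := by unfold adm; revert e; decide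
  have h3 : adm e 3 ↔ (2 ≤ (3 : Fin 5) ∧ 3 ≠ e) := by unfold adm; revert e; decide
  have h4 : adm e 4 ↔ (2 ≤ (4 : Fin 5) ∧ 4 ≠ e) := by unfold adm; revert e; decide
  have c1 : co5 1 = eta5 := by simp [co5]
  have c2 : co5 2 = eta5 * t5 := by simp [co5]
  have c3 : co5 3 = eta5 * t5 := by simp [co5]
  have c4 : co5 4 = eta5 * t5 := by simp [co5]
  simp only [h0, h1, h2, h3, h4, c1, c2, c3, c4, if_false, if_true]
  have e0 : ¬ (2 ≤ (0 : Fin 5) ∧ 0 ≠ e) := by revert e; decide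
  have e1 : ¬ (2 ≤ (1 : Fin 5) ∧ 1 ≠ e) := by revert e; decide
  simp only [if_neg e0, if_neg e1]
  split_ifs <;> push_cast <;> ring

theorem C4_eq' (J : Fin 4 → SO) :
    C4 J = ∑ a : Fin 5, if a ≠ 0 then (co4 a : ℂ) * asym (ind (tup4 a)) J else 0 := by
  rw [C4_eq, Fin.sum_univ_five, Fin.sum_univ_five]
  have c1 : co4 1 = eta4 := by simp [co4]
  have c2 : co4 2 = eta4 * t4 := by simp [co4]
  have c3 : co4 3 = eta4 * t4 := by simp [co4]
  have c4 : co4 4 = eta4 * t4 := by simp [co4]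
  simp only [c1, c2, c3, c4]
  rw [if_neg (by decide), if_neg (by decide), if_pos (by decide), if_pos (by decide),
    if_pos (by decide), if_neg (by decide), if_pos (by decide), if_pos (by decide),
    if_pos (by decide), if_pos (by decide)]
  push_cast
  ring

theorem tup5_inj {e a : Fin 5} (he : 2 ≤ e) (ha : adm e a) (s : Fin 2) :
    Function.Injective (tup5 a e s) := by
  revert e a s
  unfold adm tup5 Function.Injective
  decide

theorem tup4_inj {a : Fin 5} (ha : a ≠ 0) : Function.Injective (tup4 a) := by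
  revert a
  unfold tup4 Function.Injective
  decide

/-- The values of the ground tensors on the reference tuples. -/
theorem C5_val {e a : Fin 5} (he : 2 ≤ e) (ha : adm e a) (s : Fin 2) :
    C5 e s (tup5 a e s) = (co5 a : ℂ) := by
  rw [C5_eq', Finset.sum_eq_single a]
  · rw [if_pos ha, asym_ind_self _ (tup5_inj he ha s), mul_one]
  · intro b _ hb
    by_cases h : adm e b
    · rw [if_pos h, asym_ind_zero, mul_zero]
      have key : ∀ (e a b : Fin 5) (s : Fin 2), 2 ≤ e → adm e a → adm e b → b ≠ a →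
          ∃ i, ∀ j, tup5 a e s i ≠ tup5 b e s j := by
        unfold adm tup5
        decide
      exact key e a b s he ha h hb
    · rw [if_neg h]
  · intro h
    exact absurd (Finset.mem_univ _) h

theorem C4_val {a : Fin 5} (ha : a ≠ 0) : C4 (tup4 a) = (co4 a : ℂ) := by
  rw [C4_eq', Finset.sum_eq_single a]
  · rw [if_pos ha, asym_ind_self _ (tup4_inj ha), mul_one]
  · intro b _ hb
    by_cases h : b ≠ 0
    · rw [if_pos h, asym_ind_zero, mul_zero]
      have key : ∀ (a b : Fin 5), a ≠ 0 → b ≠ 0 → b ≠ a →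
          ∃ i, ∀ j, tup4 a i ≠ tup4 b j := by
        unfold tup4
        decide
      exact key a b ha h hb
    · rw [if_neg h]
  · intro h
    exact absurd (Finset.mem_univ _) h

end

end Vale.Agent.P363.H979.CI
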