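import Vale.Agent.P363.H979.CI.Ground

/-!
Properties of the ground tensors `C5 e s` and `C4`: orthonormality, Dyson contraction, values of
the repulsion form.
-/

namespace Vale.Agent.P363.H979.CI

open scoped ComplexConjugate

noncomputable section

variable {D : Fin 5 → Fin 5 → Fin 5 → Fin 5 → ℝ}

theorem asym_ind_zero' {N : ℕ} (I J : Fin N → SO) (h : ∃ j, ∀ i, J i ≠ I j) :
    asym (ind I) J = 0 := by
  obtain ⟨j, hj⟩ := h
  unfold asym
  refine Finset.sum_eq_zero fun σ _ => ?_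
  have : J ∘ σ ≠ I := fun h => hj _ (congrFun h j)
  unfold ind
  rw [if_neg this, mul_zero]

theorem C5_zero {e : Fin 5} {s : Fin 2} {J : Fin 5 → SO}
    (h : ∀ b, adm e b → ∃ j, ∀ i, J i ≠ tup5 b e s j) : C5 e s J = 0 := by
  rw [C5_eq']
  refine Finset.sum_eq_zero fun b _ => ?_
  by_cases hb : adm e b
  · rw [if_pos hb, asym_ind_zero' _ _ (h b hb), mul_zero]
  · rw [if_neg hb]

theorem C4_zero {J : Fin 4 → SO}
    (h : ∀ b : Fin 5, b ≠ 0 → ∃ j, ∀ i, J i ≠ tup4 b j) : C4 J = 0 := by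
  rw [C4_eq']
  refine Finset.sum_eq_zero fun b _ => ?_
  by_cases hb : b ≠ 0
  · rw [if_pos hb, asym_ind_zero' _ _ (h b hb), mul_zero]
  · rw [if_neg hb]

theorem adm0 : ∀ e : Fin 5, ¬ adm e 0 := by unfold adm; decide
theorem adm2 : ∀ e : Fin 5, adm e 2 ↔ (2 ≤ (2 : Fin 5) ∧ 2 ≠ e) := by unfold adm; decide
theorem adm3 : ∀ e : Fin 5, adm e 3 ↔ (2 ≤ (3 : Fin 5) ∧ 3 ≠ e) := by unfold adm; decide
theorem adm4 : ∀ e : Fin 5, adm e 4 ↔ (2 ≤ (4 : Fin 5) ∧ 4 ≠ e) := by unfold adm; decide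
theorem adm_ne : ∀ e a : Fin 5, adm e a → a ≠ 0 := by unfold adm; decide
theorem ge_aux0 : ∀ e : Fin 5, ¬ (2 ≤ (0 : Fin 5) ∧ 0 ≠ e) := by decide
theorem ge_aux1 : ∀ e : Fin 5, ¬ (2 ≤ (1 : Fin 5) ∧ 1 ≠ e) := by decide
theorem ge_cases : ∀ e : Fin 5, 2 ≤ e → e = 2 ∨ e = 3 ∨ e = 4 := by decide

theorem tin_C5' (e : Fin 5) (he : 2 ≤ e) (s : Fin 2) (c : Ten 5) (hc : Anti c) :
    tin (C5 e s) c = 120 * ∑ a : Fin 5, if adm e a then (co5 a : ℂ) * c (tup5 a e s) else 0 := by
  rw [tin_C5 e s c hc, Fin.sum_univ_five, Fin.sum_univ_five]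
  have h0 : ¬ adm e 0 := adm0 e
  have h1 : adm e 1 := by left; rfl
  have h2 := adm2 e
  have h3 := adm3 e
  have h4 := adm4 e
  have c1 : co5 1 = eta5 := by simp [co5]
  have c2 : co5 2 = eta5 * t5 := by simp [co5]
  have c3 : co5 3 = eta5 * t5 := by simp [co5]
  have c4 : co5 4 = eta5 * t5 := by simp [co5]
  simp only [h0, h1, h2, h3, h4, c1, c2, c3, c4, if_false, if_true]
  have e0 := ge_aux0 e
  have e1 := ge_aux1 e
  simp only [if_neg e0, if_neg e1]
  split_ifs <;> push_cast <;> ring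

theorem tin_C4' (c : Ten 4) (hc : Anti c) :
    tin C4 c = 24 * ∑ a : Fin 5, if a ≠ 0 then (co4 a : ℂ) * c (tup4 a) else 0 := by
  rw [tin_C4 c hc, Fin.sum_univ_five, Fin.sum_univ_five]
  have c1 : co4 1 = eta4 := by simp [co4]
  have c2 : co4 2 = eta4 * t4 := by simp [co4]
  have c3 : co4 3 = eta4 * t4 := by simp [co4]
  have c4 : co4 4 = eta4 * t4 := by simp [co4]
  simp only [c1, c2, c3, c4]
  rw [if_neg (by decide), if_neg (by decide), if_pos (by decide), if_pos (by decide),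
    if_pos (by decide), if_neg (by decide), if_pos (by decide), if_pos (by decide),
    if_pos (by decide), if_pos (by decide)]
  push_cast
  ring

/-- Two of the three `2p` labels are admissible. -/
theorem sum_adm {M : Type*} [AddCommMonoid M] (e : Fin 5) (he : 2 ≤ e) (x y : M) :
    (∑ a : Fin 5, if adm e a then (if a = 1 then x else y) else 0) = x + (y + y) := by
  rw [Fin.sum_univ_five]
  have h0 : ¬ adm e 0 := adm0 e
  have h1 : adm e 1 := by left; rfl
  rw [if_neg h0, if_pos h1, if_pos rfl, if_neg (show ¬ (2 : Fin 5) = 1 by decide),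
    if_neg (show ¬ (3 : Fin 5) = 1 by decide), if_neg (show ¬ (4 : Fin 5) = 1 by decide)]
  have h := ge_cases e he
  rcases h with rfl | rfl | rfl
  · rw [if_neg (by unfold adm; decide), if_pos (by unfold adm; decide),
      if_pos (by unfold adm; decide)]
    simp only [zero_add, add_zero, add_assoc]
  · rw [if_pos (by unfold adm; decide), if_neg (by unfold adm; decide),
      if_pos (by unfold adm; decide)]
    simp only [zero_add, add_zero, add_assoc]
  · rw [if_pos (by unfold adm; decide), if_pos (by unfold adm; decide),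
      if_neg (by unfold adm; decide)]
    simp only [zero_add, add_zero, add_assoc]

theorem eta5_norm : 120 * (eta5 ^ 2 * (1 + 2 * t5 ^ 2)) = 1 := by
  have hs : (0 : ℝ) < 1 + 2 * t5 ^ 2 := by positivity
  rw [eta5_sq]
  field_simp

theorem eta4_norm : 24 * (eta4 ^ 2 * (1 + 3 * t4 ^ 2)) = 1 := by
  have hs : (0 : ℝ) < 1 + 3 * t4 ^ 2 := by positivity
  rw [eta4_sq]
  field_simp

theorem eta5_pos : 0 < eta5 := by unfold eta5; positivity

theorem eta4_pos : 0 < eta4 := by unfold eta4; positivity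

theorem orth_key : ∀ (e e' a b : Fin 5) (s s' : Fin 2), 2 ≤ e → 2 ≤ e' → adm e a → adm e' b →
    (e, s) ≠ (e', s') → ∃ j, ∀ i, tup5 a e s i ≠ tup5 b e' s' j := by
  unfold adm tup5
  decide

/-- Orthonormality of the ground tensors. -/
theorem tin_C5_C5 (e e' : Fin 5) (he : 2 ≤ e) (he' : 2 ≤ e') (s s' : Fin 2) :
    tin (C5 e s) (C5 e' s') = if (e, s) = (e', s') then 1 else 0 := by
  rw [tin_C5' e he s _ (anti_C5 e' s')]
  by_cases h : (e, s) = (e', s')
  · rw [if_pos h]
    obtain ⟨rfl, rfl⟩ := Prod.mk.inj h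
    have h1 : ∀ a : Fin 5, (if adm e a then (co5 a : ℂ) * C5 e s (tup5 a e s) else 0) =
        if adm e a then (if a = 1 then (eta5 : ℂ) ^ 2 else (eta5 * t5 : ℂ) ^ 2) else 0 := by
      intro a
      by_cases ha : adm e a
      · rw [if_pos ha, if_pos ha, C5_val he ha s]
        unfold co5
        split_ifs
        · ring
        · push_cast; ring
      · rw [if_neg ha, if_neg ha]
    simp only [h1]
    rw [sum_adm e he]
    have := eta5_norm
    have h2 : ((120 * (eta5 ^ 2 * (1 + 2 * t5 ^ 2)) : ℝ) : ℂ) = 1 := by rw [this]; simp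
    rw [← h2]
    push_cast
    ring
  · rw [if_neg h]
    have h1 : ∀ a : Fin 5, (if adm e a then (co5 a : ℂ) * C5 e' s' (tup5 a e s) else 0) = 0 := by
      intro a
      by_cases ha : adm e a
      · rw [if_pos ha, C5_zero (fun b hb => orth_key e e' a b s s' he he' ha hb h), mul_zero]
      · rw [if_neg ha]
    simp only [h1]
    simp

theorem tin_C4_C4 : tin C4 C4 = 1 := by
  rw [tin_C4' _ anti_C4]
  have h1 : ∀ a : Fin 5, (if a ≠ 0 then (co4 a : ℂ) * C4 (tup4 a) else 0) =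
      if a ≠ 0 then (co4 a : ℂ) ^ 2 else 0 := by
    intro a
    by_cases ha : a ≠ 0
    · rw [if_pos ha, if_pos ha, C4_val ha]; ring
    · rw [if_neg ha, if_neg ha]
  simp only [h1]
  rw [Fin.sum_univ_five, if_neg (by decide), if_pos (by decide), if_pos (by decide),
    if_pos (by decide), if_pos (by decide)]
  have c1 : co4 1 = eta4 := by simp [co4]
  have c2 : co4 2 = eta4 * t4 := by simp [co4]
  have c3 : co4 3 = eta4 * t4 := by simp [co4]
  have c4 : co4 4 = eta4 * t4 := by simp [co4]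
  rw [c1, c2, c3, c4]
  have := eta4_norm
  have h2 : ((24 * (eta4 ^ 2 * (1 + 3 * t4 ^ 2)) : ℝ) : ℂ) = 1 := by rw [this]; simp
  rw [← h2]
  push_cast
  ring

theorem tin_self {N : ℕ} (c : Ten N) : tin c c = (nsq c : ℂ) := by
  unfold tin nsq
  push_cast
  refine Finset.sum_congr rfl fun J _ => ?_
  rw [mul_comm, Complex.mul_conj, Complex.normSq_eq_norm_sq]
  push_cast
  rfl

theorem nsq_C5 (e : Fin 5) (he : 2 ≤ e) (s : Fin 2) : nsq (C5 e s) = 1 := by
  have h := tin_self (C5 e s)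
  rw [tin_C5_C5 e e he he s s, if_pos rfl] at h
  exact_mod_cast h.symm

theorem nsq_C4 : nsq C4 = 1 := by
  have h := tin_self C4
  rw [tin_C4_C4] at h
  exact_mod_cast h.symm

/-- The Dyson constant. -/
def kap : ℝ := 24 * (eta4 * eta5 * (1 + 2 * (t4 * t5)))

theorem kap_pos : 0 < kap := by
  unfold kap
  have h := mul_pos_of_neg_of_neg t4_neg t5_neg
  have := eta4_pos
  have := eta5_pos
  positivity

/-- Contraction of the first slot. -/
def slot {n : ℕ} (c : Ten (n + 1)) (p : SO) : Ten n := fun J => c (Fin.cons p J)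

theorem Anti.slot {n : ℕ} {c : Ten (n + 1)} (hc : Anti c) (p : SO) : Anti (slot c p) := by
  intro σ J
  unfold CI.slot
  have h := hc (Equiv.Perm.decomposeFin.symm (0, σ)) (Fin.cons p J)
  rw [Equiv.Perm.decomposeFin.symm_sign, if_pos rfl, one_mul] at h
  rw [← h]
  congr 1
  funext i
  refine Fin.cases ?_ (fun i => ?_) i
  · simp
  · simp

theorem dyson_key : ∀ (e a b : Fin 5) (s : Fin 2) (p : SO), 2 ≤ e → a ≠ 0 → adm e b →
    (p ≠ (e, s) ∨ ¬ adm e a) →
    ∃ j, ∀ i, (Fin.cons p (tup4 a) : Fin 5 → SO) i ≠ tup5 b e s j := by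
  unfold adm tup4 tup5
  decide

theorem C5_cons_zero {e a : Fin 5} {s : Fin 2} {p : SO} (he : 2 ≤ e) (ha : a ≠ 0)
    (h : p ≠ (e, s) ∨ ¬ adm e a) : C5 e s (Fin.cons p (tup4 a)) = 0 :=
  C5_zero fun b hb => dyson_key e a b s p he ha hb h

theorem C5_cons_val {e a : Fin 5} (he : 2 ≤ e) (ha : adm e a) (s : Fin 2) :
    C5 e s (Fin.cons (e, s) (tup4 a)) = (co5 a : ℂ) := by
  rw [← C5_val he ha s]
  have h := anti_C5 e s (finRotate 5)⁻¹ (tup5 a e s)
  have h2 : (tup5 a e s) ∘ ((finRotate 5)⁻¹ : Equiv.Perm (Fin 5)) = Fin.cons (e, s) (tup4 a) := by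
    funext i
    fin_cases i <;> rfl
  rw [h2, Equiv.Perm.sign_inv, sign_finRotate] at h
  rw [h]
  simp

/-- **Dyson contraction**: `⟨C4, C5 e s (p, ·)⟩ = kap δ_{p, (e, s)}`. -/
theorem dyson_C (e : Fin 5) (he : 2 ≤ e) (s : Fin 2) (p : SO) :
    tin C4 (slot (C5 e s) p) = if p = (e, s) then (kap : ℂ) else 0 := by
  rw [tin_C4' _ ((anti_C5 e s).slot p)]
  by_cases hp : p = (e, s)
  · rw [if_pos hp, hp]
    have h1 : ∀ a : Fin 5, (if a ≠ 0 then (co4 a : ℂ) * slot (C5 e s) (e, s) (tup4 a) else 0) =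
        if adm e a then (if a = 1 then (eta4 * eta5 : ℂ) else (eta4 * t4 * (eta5 * t5) : ℂ))
          else 0 := by
      intro a
      by_cases ha : adm e a
      · have ha0 : a ≠ 0 := adm_ne e a ha
        rw [if_pos ha0, if_pos ha]
        unfold CI.slot
        rw [C5_cons_val he ha s]
        unfold co4 co5
        split_ifs <;> push_cast <;> ring
      · rw [if_neg ha]
        by_cases ha0 : a ≠ 0
        · rw [if_pos ha0]
          unfold CI.slot
          rw [C5_cons_zero he ha0 (Or.inr ha), mul_zero]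
        · rw [if_neg ha0]
    simp only [h1]
    rw [sum_adm e he]
    unfold kap
    push_cast
    ring
  · rw [if_neg hp]
    have h1 : ∀ a : Fin 5, (if a ≠ 0 then (co4 a : ℂ) * slot (C5 e s) p (tup4 a) else 0) = 0 := by
      intro a
      by_cases ha0 : a ≠ 0
      · rw [if_pos ha0]
        unfold CI.slot
        rw [C5_cons_zero he ha0 (Or.inl hp), mul_zero]
      · rw [if_neg ha0]
    simp only [h1]
    simp

end

end Vale.Agent.P363.H979.CI
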