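import Vale.Agent.P363.H979.CI.Value4
import Vale.Agent.P363.R.H10.Table

/-! The lowest values for the actual Coulomb integrals. -/

namespace Vale.Agent.P363.H979.CI

theorem two_le_succ_succ : ∀ i : Fin 3, (2 : Fin 5) ≤ i.succ.succ := by decide

theorem hW5 : ∀ i : Fin 3 × Fin 2,
    WF R.H10.eri (C5 (i.1.succ.succ) i.2) = R.H10.eri 0 0 0 0 + w5 := fun i =>
  WF_C5 R.H10.table_eri _ (two_le_succ_succ i.1) _

theorem hW4 : WF R.H10.eri C4 = R.H10.eri 0 0 0 0 + w4 := WF_C4 R.H10.table_eri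

end Vale.Agent.P363.H979.CI
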