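import Vale.Agent.P363.H979.CI.Sums

/-!
The repulsion form on two-electron arrays: shell-shell, core-shell and core-core parts.
-/

namespace Vale.Agent.P363.H979.CI

noncomputable section

variable {D : Fin 5 → Fin 5 → Fin 5 → Fin 5 → ℝ}

/-- Pair form with spin. -/
def Vf (D : Fin 5 → Fin 5 → Fin 5 → Fin 5 → ℝ) (t : SO → SO → ℝ) : ℝ :=
  ∑ p, ∑ q, ∑ p', ∑ q', vel D p q p' q' * (t p q * t p' q')

/-- Orbital pair form. -/
def VO (D : Fin 5 → Fin 5 → Fin 5 → Fin 5 → ℝ) (M : Fin 5 → Fin 5 → ℝ) : ℝ :=
  ∑ a, ∑ b, ∑ a', ∑ b', D a a' b b' * (M a b * M a' b')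

theorem Vf_eq (t : SO → SO → ℝ) :
    Vf D t = VO D (fun a b => t (a, 0) (b, 0)) + VO D (fun a b => t (a, 0) (b, 1)) +
      VO D (fun a b => t (a, 1) (b, 0)) + VO D (fun a b => t (a, 1) (b, 1)) := by
  have h01 : ((0 : Fin 2) = 1) = False := by simp
  have h10 : ((1 : Fin 2) = 0) = False := by simp
  unfold Vf VO vel
  simp only [Fintype.sum_prod_type, Fin.sum_univ_two, h01, h10, and_true, and_false,
    if_true, if_false, zero_mul, Finset.sum_add_distrib]
  simp only [← Finset.sum_add_distrib]
  refine Finset.sum_congr rfl fun a _ => ?_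
  simp only [Finset.sum_add_distrib, Finset.sum_const_zero]
  ring

theorem parity_aux : ∀ a b c d : Fin 4, a ≠ b → ¬ ((a = c ∧ b = d) ∨ (a = d ∧ b = c)) →
    ∃ k : Fin 5, 2 ≤ k ∧ Odd ((if a.succ = k then 1 else 0) + (if b.succ = k then 1 else 0) +
      (if c.succ = k then 1 else 0) + (if d.succ = k then 1 else 0) : ℕ) := by
  decide

/-- The shell integrals. -/
theorem Table.shell (T : Table D) (a b c d : Fin 4) :
    D a.succ b.succ c.succ d.succ = shT a b c d := by
  have hs : ∀ i : Fin 4, i ≠ 0 → (2 : Fin 5) ≤ i.succ := by decide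
  have h01 : (Fin.succ (0 : Fin 4)) = (1 : Fin 5) := rfl
  unfold shT
  by_cases hab : a = b
  · subst hab
    by_cases hcd : c = d
    · subst hcd
      simp only [if_true]
      by_cases ha : a = 0
      · subst ha
        by_cases hc : c = 0
        · subst hc
          simp only [if_true]
          exact T.v1111
        · simp only [if_true, hc, if_false]
          exact T.v11pp _ (hs c hc)
      · by_cases hc : c = 0
        · subst hc
          simp only [ha, if_false, if_true]
          rw [T.symm_pair]
          exact T.v11pp _ (hs a ha)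
        · by_cases hac : a = c
          · subst hac
            simp only [ha, if_false, if_true]
            exact T.vpppp _ (hs a ha)
          · simp only [ha, hc, hac, if_false]
            exact T.vppqq _ _ (hs a ha) (hs c hc) (fun h => hac (Fin.succ_injective _ h))
    · simp only [if_true, hcd, if_false]
      -- parity
      by_cases hc : c = 0
      · have hd : d ≠ 0 := fun h => hcd (hc.trans h.symm)
        refine T.parity d.succ (hs d hd) _ _ _ _ ?_
        have h1 : (if c.succ = d.succ then 1 else 0 : ℕ) = 0 := by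
          rw [if_neg]; exact fun h => hcd (Fin.succ_injective _ h)
        rw [h1]
        by_cases h2 : a.succ = d.succ
        · simp only [h2, if_true]; decide
        · simp only [h2, if_false, if_true]; decide
      · refine T.parity c.succ (hs c hc) _ _ _ _ ?_
        have h1 : (if d.succ = c.succ then 1 else 0 : ℕ) = 0 := by
          rw [if_neg]; exact fun h => hcd (Fin.succ_injective _ h).symm
        rw [h1]
        by_cases h2 : a.succ = c.succ
        · simp only [h2, if_true]; decide
        · simp only [h2, if_false, if_true]; decide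
  · simp only [hab, if_false]
    by_cases h : (a = c ∧ b = d) ∨ (a = d ∧ b = c)
    · simp only [h, if_true]
      have key : ∀ a b : Fin 4, a ≠ b → D a.succ b.succ a.succ b.succ =
          if a = 0 ∨ b = 0 then 15 / 512 else 27 / 2560 := by
        intro a b hab
        by_cases ha : a = 0
        · subst ha
          simp only [true_or, if_true]
          exact T.v1p1p _ (hs b (fun h => hab h.symm))
        · by_cases hb : b = 0
          · subst hb
            simp only [or_true, if_true]
            rw [T.symm_left, T.symm_pair, T.symm_left, T.symm_pair]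
            exact T.v1p1p _ (hs a ha)
          · simp only [ha, hb, or_self, if_false]
            exact T.vpqpq _ _ (hs a ha) (hs b hb) (fun h => hab (Fin.succ_injective _ h))
      rcases h with ⟨h1, h2⟩ | ⟨h1, h2⟩
      · subst h1; subst h2
        exact key a b hab
      · subst h1; subst h2
        rw [T.symm_pair, T.symm_left, T.symm_pair]
        exact key a b hab
    · simp only [h, if_false]
      obtain ⟨k, hk, hodd⟩ := parity_aux a b c d hab h
      exact T.parity k hk _ _ _ _ hodd

/-- Core-shell direct integrals. -/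
def Jc (a : Fin 4) : ℝ := if a = 0 then 17 / 81 else 59 / 243
/-- Core-shell exchange integrals. -/
def Kc (a : Fin 4) : ℝ := if a = 0 then 16 / 729 else 112 / 6561

theorem ep_eq (a : Fin 4) : ep a = 2 * Jc a - Kc a := by
  unfold ep Jc Kc
  split_ifs <;> norm_num

theorem parity_aux2 : ∀ a b : Fin 4, a ≠ b →
    ∃ k : Fin 5, 2 ≤ k ∧ Odd ((if a.succ = k then 1 else 0) + (if b.succ = k then 1 else 0) : ℕ)
      ∧ (0 : Fin 5) ≠ k := by
  decide

theorem Table.direct (T : Table D) (a b : Fin 4) :
    D 0 0 a.succ b.succ = if a = b then Jc a else 0 := by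
  have hs : ∀ i : Fin 4, i ≠ 0 → (2 : Fin 5) ≤ i.succ := by decide
  by_cases hab : a = b
  · subst hab
    simp only [if_true]
    unfold Jc
    by_cases ha : a = 0
    · subst ha
      simp only [if_true]
      exact T.v0011
    · simp only [ha, if_false]
      exact T.v00pp _ (hs a ha)
  · simp only [hab, if_false]
    obtain ⟨k, hk, hodd, h0⟩ := parity_aux2 a b hab
    refine T.parity k hk _ _ _ _ ?_
    simpa [h0] using hodd

theorem Table.exch (T : Table D) (a b : Fin 4) :
    D 0 a.succ 0 b.succ = if a = b then Kc a else 0 := by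
  have hs : ∀ i : Fin 4, i ≠ 0 → (2 : Fin 5) ≤ i.succ := by decide
  by_cases hab : a = b
  · subst hab
    simp only [if_true]
    unfold Kc
    by_cases ha : a = 0
    · subst ha
      simp only [if_true]
      exact T.v0101
    · simp only [ha, if_false]
      exact T.v0p0p _ (hs a ha)
  · simp only [hab, if_false]
    obtain ⟨k, hk, hodd, h0⟩ := parity_aux2 a b hab
    refine T.parity k hk _ _ _ _ ?_
    simpa [h0] using hodd

theorem Table.exch' (T : Table D) (a b : Fin 4) :
    D 0 b.succ a.succ 0 = if a = b then Kc a else 0 := by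
  rw [T.symm_pair, T.symm_left, T.symm_pair, T.symm_pair, T.exch]

/-- Shell-shell case. -/
theorem VO_shell (T : Table D) (M : Fin 5 → Fin 5 → ℝ) (h1 : ∀ b, M 0 b = 0)
    (h2 : ∀ a, M a 0 = 0) : VO D M = VM (fun a b => M a.succ b.succ) := by
  unfold VO VM
  simp only [Fin.sum_univ_succ (n := 4), h1, h2, zero_mul, mul_zero, Finset.sum_const_zero,
    zero_add, T.shell]
  refine Finset.sum_congr rfl fun a _ => Finset.sum_congr rfl fun b _ =>
    Finset.sum_congr rfl fun a' _ => Finset.sum_congr rfl fun b' _ => by ring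

/-- Core-core case. -/
theorem VO_core (M : Fin 5 → Fin 5 → ℝ) (h : ∀ a b, a ≠ 0 ∨ b ≠ 0 → M a b = 0) :
    VO D M = D 0 0 0 0 * M 0 0 ^ 2 := by
  have h1 : ∀ (a : Fin 4) b, M a.succ b = 0 := fun a b => h _ _ (Or.inl (Fin.succ_ne_zero a))
  have h2 : ∀ a (b : Fin 4), M a b.succ = 0 := fun a b => h _ _ (Or.inr (Fin.succ_ne_zero b))
  unfold VO
  simp only [Fin.sum_univ_succ (n := 4), h1, h2, zero_mul, mul_zero, Finset.sum_const_zero,
    add_zero]
  ring

/-- Core-shell case, row. -/
theorem VO_row (T : Table D) (M : Fin 5 → Fin 5 → ℝ) (h0 : M 0 0 = 0)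
    (h : ∀ (a : Fin 4) b, M a.succ b = 0) :
    VO D M = ∑ b : Fin 4, Jc b * M 0 b.succ ^ 2 := by
  unfold VO
  simp only [Fin.sum_univ_succ (n := 4), h, h0, zero_mul, mul_zero, Finset.sum_const_zero,
    add_zero, zero_add, T.direct]
  refine Finset.sum_congr rfl fun b _ => ?_
  simp only [ite_mul, zero_mul, Finset.sum_ite_eq, Finset.mem_univ, if_true]
  ring

/-- Core-shell case, column. -/
theorem VO_col (T : Table D) (M : Fin 5 → Fin 5 → ℝ) (h0 : M 0 0 = 0)
    (h : ∀ a (b : Fin 4), M a b.succ = 0) :
    VO D M = ∑ a : Fin 4, Jc a * M a.succ 0 ^ 2 := by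
  have hD : ∀ a b : Fin 4, D a.succ b.succ 0 0 = if a = b then Jc a else 0 := fun a b => by
    rw [T.symm_pair, T.direct]
  unfold VO
  simp only [Fin.sum_univ_succ (n := 4), h, h0, zero_mul, mul_zero, Finset.sum_const_zero,
    add_zero, zero_add, hD]
  refine Finset.sum_congr rfl fun b _ => ?_
  simp only [ite_mul, zero_mul, Finset.sum_ite_eq, Finset.mem_univ, if_true]
  ring

/-- Core-shell case, row and column with opposite signs. -/
theorem VO_rowcol (T : Table D) (M : Fin 5 → Fin 5 → ℝ) (h0 : M 0 0 = 0)
    (h : ∀ (a b : Fin 4), M a.succ b.succ = 0) (hs : ∀ a : Fin 4, M a.succ 0 = - M 0 a.succ) :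
    VO D M = ∑ a : Fin 4, 2 * (Jc a - Kc a) * M 0 a.succ ^ 2 := by
  have hD : ∀ a b : Fin 4, D a.succ b.succ 0 0 = if a = b then Jc a else 0 := fun a b => by
    rw [T.symm_pair, T.direct]
  have hK1 : ∀ a b : Fin 4, D 0 a.succ b.succ 0 = if a = b then Kc a else 0 := fun a b => by
    rw [T.exch']
    by_cases hab : a = b
    · subst hab; simp
    · rw [if_neg hab, if_neg (fun h => hab h.symm)]
  have hK2 : ∀ a b : Fin 4, D a.succ 0 0 b.succ = if a = b then Kc a else 0 := fun a b => by
    rw [T.symm_left, T.exch]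
  unfold VO
  simp only [Fin.sum_univ_succ (n := 4), h, h0, hs, zero_mul, mul_zero, Finset.sum_const_zero,
    add_zero, zero_add, hD, hK1, hK2, T.direct]
  rw [← Finset.sum_add_distrib]
  refine Finset.sum_congr rfl fun b _ => ?_
  simp only [ite_mul, zero_mul, Finset.sum_ite_eq, Finset.sum_ite_eq', Finset.mem_univ, if_true]
  ring

end

end Vale.Agent.P363.H979.CI
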