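import Vale.Agent.P363.H979.CI.Pair

/-!
Antisymmetric two-electron arrays: the four cases according to the core labels present.
-/

namespace Vale.Agent.P363.H979.CI

noncomputable section

variable {D : Fin 5 → Fin 5 → Fin 5 → Fin 5 → ℝ}

/-- Shell pair form with spin. -/
def VS (t : Sh → Sh → ℝ) : ℝ :=
  VM (fun a b => t (a, 0) (b, 0)) + VM (fun a b => t (a, 0) (b, 1)) +
    VM (fun a b => t (a, 1) (b, 0)) + VM (fun a b => t (a, 1) (b, 1))

theorem VO_zero (M : Fin 5 → Fin 5 → ℝ) (h : ∀ a b, M a b = 0) : VO D M = 0 := by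
  unfold VO
  simp only [h, mul_zero, Finset.sum_const_zero]

theorem pair0 (T : Table D) (t : SO → SO → ℝ) (ha : ∀ p q, t q p = - t p q)
    (h1 : ∀ q, t o1 q = 0) (h2 : ∀ q, t o2 q = 0) :
    Vf D t = VS (fun p q => t (em p) (em q)) := by
  have h1' : ∀ q, t (0, 0) q = 0 := h1
  have h2' : ∀ q, t (0, 1) q = 0 := h2
  have h3 : ∀ q, t q (0, 0) = 0 := fun q => by rw [ha, h1']; simp
  have h4 : ∀ q, t q (0, 1) = 0 := fun q => by rw [ha, h2']; simp
  rw [Vf_eq, VO_shell T _ (fun b => h1' _) (fun a => h3 _),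
    VO_shell T _ (fun b => h1' _) (fun a => h4 _),
    VO_shell T _ (fun b => h2' _) (fun a => h3 _),
    VO_shell T _ (fun b => h2' _) (fun a => h4 _)]
  rfl

theorem pair3 (t : SO → SO → ℝ) (ha : ∀ p q, t q p = - t p q)
    (hs : ∀ p q : Sh, t (em p) (em q) = 0) (h1 : ∀ q : Sh, t o1 (em q) = 0)
    (h2 : ∀ q : Sh, t o2 (em q) = 0) :
    Vf D t = 2 * D 0 0 0 0 * t o1 o2 ^ 2 := by
  have hd : ∀ p, t p p = 0 := fun p => by linarith [ha p p]
  have e : ∀ (a : Fin 5) (σ : Fin 2), a ≠ 0 → ∃ q : Sh, (a, σ) = em q := by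
    intro a σ h
    obtain ⟨b, rfl⟩ := Fin.exists_succ_eq.2 h
    exact ⟨(b, σ), rfl⟩
  have e0 : ∀ σ : Fin 2, ((0 : Fin 5), σ) = o1 ∨ ((0 : Fin 5), σ) = o2 := by
    intro σ
    fin_cases σ
    · left; rfl
    · right; rfl
  have key : ∀ (a b : Fin 5) (σ τ : Fin 2), a ≠ 0 ∨ b ≠ 0 → t (a, σ) (b, τ) = 0 := by
    intro a b σ τ h
    by_cases hA : a = 0
    · have hb : b ≠ 0 := by
        rcases h with h | h
        · exact absurd hA h
        · exact h
      obtain ⟨q, hq⟩ := e b τ hb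
      rw [hq, hA]
      rcases e0 σ with h' | h'
      · rw [h']; exact h1 q
      · rw [h']; exact h2 q
    · obtain ⟨p, hp⟩ := e a σ hA
      by_cases hB : b = 0
      · rw [hp, hB, ha]
        rcases e0 τ with h' | h'
        · rw [h', h1]; simp
        · rw [h', h2]; simp
      · obtain ⟨q, hq⟩ := e b τ hB
        rw [hp, hq]; exact hs p q
  rw [Vf_eq, VO_core _ (fun a b h => key a b 0 0 h), VO_core _ (fun a b h => key a b 0 1 h),
    VO_core _ (fun a b h => key a b 1 0 h), VO_core _ (fun a b h => key a b 1 1 h)]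
  have r1 : t (0, 0) (0, 0) = 0 := hd _
  have r2 : t (0, 1) (0, 1) = 0 := hd _
  have r3 : t (0, 0) (0, 1) = t o1 o2 := rfl
  have r4 : t (0, 1) (0, 0) = - t o1 o2 := ha _ _
  rw [r1, r2, r3, r4]
  ring

theorem pair1 (T : Table D) (t : SO → SO → ℝ) (ha : ∀ p q, t q p = - t p q)
    (hs : ∀ p q : Sh, t (em p) (em q) = 0) (h1 : ∀ q, t o1 q = 0) :
    Vf D t = 2 * (∑ b : Fin 4, Jc b * t o2 (em (b, 0)) ^ 2) +
      2 * ∑ b : Fin 4, (Jc b - Kc b) * t o2 (em (b, 1)) ^ 2 := by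
  have hd : ∀ p, t p p = 0 := fun p => by linarith [ha p p]
  have h1' : ∀ q, t (0, 0) q = 0 := h1
  have h3 : ∀ q, t q (0, 0) = 0 := fun q => by rw [ha, h1']; simp
  have hs' : ∀ (a b : Fin 4) (σ τ : Fin 2), t (a.succ, σ) (b.succ, τ) = 0 :=
    fun a b σ τ => hs (a, σ) (b, τ)
  have e1 : VO D (fun a b => t (a, 0) (b, 0)) = 0 := by
    refine VO_zero _ fun a b => ?_
    induction a using Fin.cases with
    | zero => exact h1' _
    | succ a =>
      induction b using Fin.cases with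
      | zero => exact h3 _
      | succ b => exact hs' a b 0 0
  have e2 : VO D (fun a b => t (a, 0) (b, 1)) = ∑ b : Fin 4, Jc b * t o2 (em (b, 0)) ^ 2 := by
    rw [VO_col T _ (h1' _)]
    · refine Finset.sum_congr rfl fun b _ => ?_
      have : t (b.succ, 0) (0, 1) = - t o2 (em (b, 0)) := ha _ _
      rw [this]; ring
    · intro a b
      induction a using Fin.cases with
      | zero => exact h1' _
      | succ a => exact hs' a b 0 1
  have e3 : VO D (fun a b => t (a, 1) (b, 0)) = ∑ b : Fin 4, Jc b * t o2 (em (b, 0)) ^ 2 := by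
    rw [VO_row T _ (h3 _)]
    · rfl
    · intro a b
      induction b using Fin.cases with
      | zero => exact h3 _
      | succ b => exact hs' a b 1 0
  have e4 : VO D (fun a b => t (a, 1) (b, 1)) =
      ∑ b : Fin 4, 2 * (Jc b - Kc b) * t o2 (em (b, 1)) ^ 2 := by
    rw [VO_rowcol T _ (hd _) (fun a b => hs' a b 1 1) (fun a => ha _ _)]
    rfl
  rw [Vf_eq, e1, e2, e3, e4]
  simp only [Finset.mul_sum, ← Finset.sum_add_distrib]
  rw [zero_add, ← Finset.sum_add_distrib, ← Finset.sum_add_distrib]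
  refine Finset.sum_congr rfl fun b _ => by ring

theorem pair2 (T : Table D) (t : SO → SO → ℝ) (ha : ∀ p q, t q p = - t p q)
    (hs : ∀ p q : Sh, t (em p) (em q) = 0) (h1 : ∀ q, t o2 q = 0) :
    Vf D t = 2 * (∑ b : Fin 4, Jc b * t o1 (em (b, 1)) ^ 2) +
      2 * ∑ b : Fin 4, (Jc b - Kc b) * t o1 (em (b, 0)) ^ 2 := by
  have hd : ∀ p, t p p = 0 := fun p => by linarith [ha p p]
  have h1' : ∀ q, t (0, 1) q = 0 := h1
  have h3 : ∀ q, t q (0, 1) = 0 := fun q => by rw [ha, h1']; simp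
  have hs' : ∀ (a b : Fin 4) (σ τ : Fin 2), t (a.succ, σ) (b.succ, τ) = 0 :=
    fun a b σ τ => hs (a, σ) (b, τ)
  have e1 : VO D (fun a b => t (a, 1) (b, 1)) = 0 := by
    refine VO_zero _ fun a b => ?_
    induction a using Fin.cases with
    | zero => exact h1' _
    | succ a =>
      induction b using Fin.cases with
      | zero => exact h3 _
      | succ b => exact hs' a b 1 1
  have e2 : VO D (fun a b => t (a, 1) (b, 0)) = ∑ b : Fin 4, Jc b * t o1 (em (b, 1)) ^ 2 := by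
    rw [VO_col T _ (h1' _)]
    · refine Finset.sum_congr rfl fun b _ => ?_
      have : t (b.succ, 1) (0, 0) = - t o1 (em (b, 1)) := ha _ _
      rw [this]; ring
    · intro a b
      induction a using Fin.cases with
      | zero => exact h1' _
      | succ a => exact hs' a b 1 0
  have e3 : VO D (fun a b => t (a, 0) (b, 1)) = ∑ b : Fin 4, Jc b * t o1 (em (b, 1)) ^ 2 := by
    rw [VO_row T _ (h3 _)]
    · rfl
    · intro a b
      induction b using Fin.cases with
      | zero => exact h3 _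
      | succ b => exact hs' a b 0 1
  have e4 : VO D (fun a b => t (a, 0) (b, 0)) =
      ∑ b : Fin 4, 2 * (Jc b - Kc b) * t o1 (em (b, 0)) ^ 2 := by
    rw [VO_rowcol T _ (hd _) (fun a b => hs' a b 0 0) (fun a => ha _ _)]
    rfl
  rw [Vf_eq, e1, e2, e3, e4]
  simp only [Finset.mul_sum, ← Finset.sum_add_distrib]
  rw [add_zero]
  refine Finset.sum_congr rfl fun b _ => by ring

/-! Squared norms of pairs. -/

/-- Squared norm of a pair array. -/
def np (t : SO → SO → ℝ) : ℝ := ∑ p, ∑ q, t p q ^ 2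

theorem np0 (t : SO → SO → ℝ) (ha : ∀ p q, t q p = - t p q)
    (h1 : ∀ q, t o1 q = 0) (h2 : ∀ q, t o2 q = 0) :
    np t = ∑ p : Sh, ∑ q : Sh, t (em p) (em q) ^ 2 := by
  have h3 : ∀ q, t q o1 = 0 := fun q => by rw [ha, h1]; simp
  have h4 : ∀ q, t q o2 = 0 := fun q => by rw [ha, h2]; simp
  unfold np
  simp only [sum_SO, h1, h2, h3, h4, ne_eq, OfNat.ofNat_ne_zero, not_false_eq_true, zero_pow,
    Finset.sum_const_zero, zero_add]

theorem np3 (t : SO → SO → ℝ) (ha : ∀ p q, t q p = - t p q)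
    (hs : ∀ p q : Sh, t (em p) (em q) = 0) (h1 : ∀ q : Sh, t o1 (em q) = 0)
    (h2 : ∀ q : Sh, t o2 (em q) = 0) : np t = 2 * t o1 o2 ^ 2 := by
  have hd : ∀ p, t p p = 0 := fun p => by linarith [ha p p]
  have h3 : ∀ q : Sh, t (em q) o1 = 0 := fun q => by rw [ha, h1]; simp
  have h4 : ∀ q : Sh, t (em q) o2 = 0 := fun q => by rw [ha, h2]; simp
  have h5 : t o2 o1 = - t o1 o2 := ha _ _
  unfold np
  simp only [sum_SO, h1, h2, h3, h4, h5, hs, hd, ne_eq, OfNat.ofNat_ne_zero, not_false_eq_true,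
    zero_pow, Finset.sum_const_zero, zero_add, add_zero]
  ring

theorem np1 (t : SO → SO → ℝ) (ha : ∀ p q, t q p = - t p q)
    (hs : ∀ p q : Sh, t (em p) (em q) = 0) (h1 : ∀ q, t o1 q = 0) :
    np t = 2 * ∑ q : Sh, t o2 (em q) ^ 2 := by
  have hd : ∀ p, t p p = 0 := fun p => by linarith [ha p p]
  have h3 : ∀ q, t q o1 = 0 := fun q => by rw [ha, h1]; simp
  have h4 : ∀ q, t (em q) o2 ^ 2 = t o2 (em q) ^ 2 := fun q => by rw [ha]; ring
  unfold np
  simp only [sum_SO, h1, h3, h4, hs, hd, ne_eq, OfNat.ofNat_ne_zero, not_false_eq_true,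
    zero_pow, Finset.sum_const_zero, zero_add, add_zero]
  ring

theorem np2 (t : SO → SO → ℝ) (ha : ∀ p q, t q p = - t p q)
    (hs : ∀ p q : Sh, t (em p) (em q) = 0) (h1 : ∀ q, t o2 q = 0) :
    np t = 2 * ∑ q : Sh, t o1 (em q) ^ 2 := by
  have hd : ∀ p, t p p = 0 := fun p => by linarith [ha p p]
  have h3 : ∀ q, t q o2 = 0 := fun q => by rw [ha, h1]; simp
  have h4 : ∀ q, t (em q) o1 ^ 2 = t o1 (em q) ^ 2 := fun q => by rw [ha]; ring
  unfold np
  simp only [sum_SO, h1, h3, h4, hs, hd, ne_eq, OfNat.ofNat_ne_zero, not_false_eq_true,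
    zero_pow, Finset.sum_const_zero, zero_add, add_zero]
  ring

end

end Vale.Agent.P363.H979.CI
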