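import Vale.Agent.P363.H979.CI.Ground2

/-!
The one-particle reduced density matrix of the ground tensors `C5 e s`.
-/

namespace Vale.Agent.P363.H979.CI

open scoped ComplexConjugate

noncomputable section

/-- Replacement of a label `p` by `q`, summed over the slots. -/
def repl {N : ℕ} (c : Ten N) (p q : SO) : Ten N := fun K =>
  ∑ k : Fin N, if K k = p then c (Function.update K k q) else 0

theorem Anti.repl {N : ℕ} {c : Ten N} (hc : Anti c) (p q : SO) : Anti (repl c p q) := by
  intro τ K
  unfold CI.repl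
  rw [Finset.mul_sum]
  refine Fintype.sum_equiv τ _ _ fun k => ?_
  simp only [Function.comp_apply]
  have h1 : Function.update (K ∘ τ) k q = Function.update K (τ k) q ∘ τ := by
    funext i
    rcases eq_or_ne i k with rfl | hik
    · simp
    · have : τ i ≠ τ k := fun h => hik (τ.injective h)
      simp [Function.update_of_ne hik, Function.update_of_ne this]
  rw [h1, hc τ]
  split_ifs
  · rfl
  · simp

theorem sum_slot {n : ℕ} {c : Ten (n + 1)} (hc : Anti c) (p q : SO) (k : Fin (n + 1)) :
    ∑ K, conj (c K) * (if K k = p then c (Function.update K k q) else 0) =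
      tin (slot c p) (slot c q) := by
  have h1 : ∑ K, conj (c K) * (if K k = p then c (Function.update K k q) else 0) =
      ∑ K, conj (c K) * (if K 0 = p then c (Function.update K 0 q) else 0) := by
    by_cases hk : k = 0
    · rw [hk]
    · refine Fintype.sum_equiv (Equiv.arrowCongr (Equiv.swap 0 k) (Equiv.refl SO)) _ _
        fun K => ?_
      have h2 : (Equiv.arrowCongr (Equiv.swap 0 k) (Equiv.refl SO)) K = K ∘ Equiv.swap 0 k := by
        funext i
        simp [Equiv.arrowCongr]
      have h3 : Function.update (K ∘ Equiv.swap 0 k) 0 q =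
          Function.update K k q ∘ Equiv.swap 0 k := by
        funext i
        rcases eq_or_ne i 0 with rfl | hi
        · simp
        · have : (Equiv.swap 0 k) i ≠ k := by
            intro h
            apply hi
            have := congrArg (Equiv.swap 0 k) h
            simpa using this
          simp [Function.update_of_ne hi, Function.update_of_ne this]
      rw [h2, h3, hc (Equiv.swap 0 k) K, hc (Equiv.swap 0 k) (Function.update K k q),
        Equiv.Perm.sign_swap (fun h => hk h.symm)]
      simp only [Function.comp_apply, Equiv.swap_apply_left]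
      split_ifs
      · simp
      · simp
  rw [h1, sum_cons]
  unfold tin CI.slot
  rw [Finset.sum_eq_single p]
  · refine Finset.sum_congr rfl fun J _ => ?_
    rw [Fin.cons_zero, if_pos rfl, Fin.update_cons_zero]
  · intro p' _ hp'
    refine Finset.sum_eq_zero fun J _ => ?_
    rw [Fin.cons_zero, if_neg hp', mul_zero]
  · intro h
    exact absurd (Finset.mem_univ _) h

theorem tin_repl {n : ℕ} {c : Ten (n + 1)} (hc : Anti c) (p q : SO) :
    tin c (repl c p q) = (n + 1 : ℂ) * tin (slot c p) (slot c q) := by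
  have h : tin c (repl c p q) =
      ∑ k : Fin (n + 1), ∑ K, conj (c K) * (if K k = p then c (Function.update K k q) else 0) := by
    unfold tin CI.repl
    rw [Finset.sum_comm]
    refine Finset.sum_congr rfl fun K _ => ?_
    rw [Finset.mul_sum]
  rw [h]
  simp only [sum_slot hc]
  simp

/-- Membership of a label in a reference tuple. -/
def mem5 (a e : Fin 5) (s : Fin 2) (p : SO) : Prop := ∃ k, tup5 a e s k = p

instance (a e : Fin 5) (s : Fin 2) (p : SO) : Decidable (mem5 a e s p) := by
  unfold mem5; infer_instance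

theorem repl_key (e a b : Fin 5) (s : Fin 2) (k : Fin 5) (q : SO) (he : 2 ≤ e) (ha : adm e a)
    (hb : adm e b) (hq : q ≠ tup5 a e s k) :
    ∃ j, ∀ i, Function.update (tup5 a e s) k q i ≠ tup5 b e s j := by
  by_cases hab : b = a
  · subst hab
    refine ⟨k, fun i => ?_⟩
    rcases eq_or_ne i k with rfl | hik
    · simpa using hq
    · rw [Function.update_of_ne hik]
      exact fun h => hik (tup5_inj he hb s h)
  · have key : ∀ (e a b : Fin 5) (s : Fin 2) (i : Fin 5), 2 ≤ e → adm e a → adm e b → b ≠ a →
        tup5 a e s i ≠ (b, 0) ∧ tup5 a e s i ≠ (b, 1) := by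
      unfold adm tup5
      decide
    by_cases hq0 : q = (b, 0)
    · refine ⟨3, fun i => ?_⟩
      rcases eq_or_ne i k with rfl | hik
      · rw [Function.update_self, hq0]
        intro h
        have h' : ((b, 0) : SO) = (b, 1) := h
        have h'' : (0 : Fin 2) = 1 := congrArg Prod.snd h'
        exact absurd h'' (by decide)
      · rw [Function.update_of_ne hik]
        exact (key e a b s i he ha hb hab).2
    · refine ⟨2, fun i => ?_⟩
      rcases eq_or_ne i k with rfl | hik
      · rw [Function.update_self]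
        exact hq0
      · rw [Function.update_of_ne hik]
        exact (key e a b s i he ha hb hab).1

theorem repl_C5 (e a : Fin 5) (s : Fin 2) (p q : SO) (he : 2 ≤ e) (ha : adm e a) :
    repl (C5 e s) p q (tup5 a e s) = if p = q ∧ mem5 a e s p then (co5 a : ℂ) else 0 := by
  unfold CI.repl
  by_cases hpq : p = q
  · subst hpq
    have h1 : ∀ k : Fin 5, (if tup5 a e s k = p then
        C5 e s (Function.update (tup5 a e s) k p) else 0) =
        if tup5 a e s k = p then (co5 a : ℂ) else 0 := by
      intro k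
      by_cases hk : tup5 a e s k = p
      · rw [if_pos hk, if_pos hk, ← hk, Function.update_eq_self, C5_val he ha s]
      · rw [if_neg hk, if_neg hk]
    simp only [h1]
    by_cases hm : mem5 a e s p
    · rw [if_pos ⟨trivial, hm⟩]
      obtain ⟨k, hk⟩ := hm
      rw [Finset.sum_eq_single k]
      · rw [if_pos hk]
      · intro k' _ hk'
        rw [if_neg]
        intro h
        exact hk' (tup5_inj he ha s (h.trans hk.symm))
      · intro h
        exact absurd (Finset.mem_univ _) h
    · rw [if_neg (fun h => hm h.2)]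
      refine Finset.sum_eq_zero fun k _ => ?_
      rw [if_neg (fun h => hm ⟨k, h⟩)]
  · rw [if_neg (fun h => hpq h.1)]
    refine Finset.sum_eq_zero fun k _ => ?_
    by_cases hk : tup5 a e s k = p
    · rw [if_pos hk]
      exact C5_zero fun b hb => repl_key e a b s k q he ha hb
        (fun h => hpq (hk.symm.trans h.symm))
    · rw [if_neg hk]

/-- Occupation numbers (times five). -/
def occ (e : Fin 5) (s : Fin 2) (p : SO) : ℝ :=
  24 * ∑ a : Fin 5, if adm e a ∧ mem5 a e s p then co5 a ^ 2 else 0

/-- **One-particle density matrix** of the ground tensors. -/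
theorem rdm_C5 (e : Fin 5) (he : 2 ≤ e) (s : Fin 2) (p q : SO) :
    tin (slot (C5 e s) p) (slot (C5 e s) q) = if p = q then (occ e s p : ℂ) else 0 := by
  have h1 := tin_repl (anti_C5 e s) p q
  rw [tin_C5' e he s _ ((anti_C5 e s).repl p q)] at h1
  have h2 : ∀ a : Fin 5, (if adm e a then (co5 a : ℂ) * repl (C5 e s) p q (tup5 a e s) else 0) =
      if p = q then (if adm e a ∧ mem5 a e s p then (co5 a : ℂ) ^ 2 else 0) else 0 := by
    intro a
    by_cases ha : adm e a
    · rw [if_pos ha, repl_C5 e a s p q he ha]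
      by_cases hpq : p = q
      · by_cases hm : mem5 a e s p
        · rw [if_pos ⟨hpq, hm⟩, if_pos hpq, if_pos ⟨ha, hm⟩]; ring
        · rw [if_neg (fun h => hm h.2), if_pos hpq, if_neg (fun h => hm h.2)]; simp
      · rw [if_neg (fun h => hpq h.1), if_neg hpq]; simp
    · rw [if_neg ha]
      by_cases hpq : p = q
      · rw [if_pos hpq, if_neg (fun h => ha h.1)]
      · rw [if_neg hpq]
  simp only [h2] at h1
  by_cases hpq : p = q
  · simp only [if_pos hpq] at h1
    rw [if_pos hpq]
    unfold occ
    have h3 : (((24 * ∑ a : Fin 5, if adm e a ∧ mem5 a e s p then co5 a ^ 2 else 0 : ℝ)) : ℂ) =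
        24 * ∑ a : Fin 5, if adm e a ∧ mem5 a e s p then (co5 a : ℂ) ^ 2 else 0 := by
      push_cast
      congr 1
      refine Finset.sum_congr rfl fun a _ => ?_
      split_ifs <;> simp
    rw [h3]
    push_cast at h1
    linear_combination - h1 / 5
  · simp only [if_neg hpq, Finset.sum_const_zero, mul_zero] at h1
    rw [if_neg hpq]
    push_cast at h1
    linear_combination - h1 / 5

/-- Occupation of `2s`. -/
def alpha : ℝ := 2 / (1 + 2 * t5 ^ 2)
/-- Occupation of the two closed `2p` orbitals. -/
def beta : ℝ := 2 * t5 ^ 2 / (1 + 2 * t5 ^ 2)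

theorem alpha_add : alpha + 2 * beta = 2 := by
  have hs : (0 : ℝ) < 1 + 2 * t5 ^ 2 := by positivity
  unfold alpha beta
  field_simp

theorem alpha_pos : 0 < alpha := by unfold alpha; positivity

theorem beta_pos : 0 < beta := by
  have h1 := t5_neg.ne
  have h2 : 0 < t5 ^ 2 := by positivity
  unfold beta
  positivity

theorem alpha_lt : alpha < 2 := by
  have h1 := alpha_add
  have h2 := beta_pos
  linarith

theorem beta_lt : beta < 2 := by
  have h1 := alpha_add
  have h2 := alpha_pos
  linarith

theorem occ_eval : ∀ (e : Fin 5) (s : Fin 2) (b : Fin 5) (σ : Fin 2), 2 ≤ e →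
    ∀ a : Fin 5, (adm e a ∧ mem5 a e s (b, σ)) ↔
      (adm e a ∧ (b = 0 ∨ b = a ∨ (b = e ∧ σ = s))) := by
  unfold adm mem5 tup5
  decide

theorem fin2_cases : ∀ s : Fin 2, s = 0 ∨ s = 1 := by decide

theorem adm_ne_e : ∀ e a : Fin 5, 2 ≤ e → adm e a → e ≠ a := by unfold adm; decide

theorem adm_of : ∀ e b : Fin 5, 2 ≤ e → b ≠ 0 → b ≠ 1 → b ≠ e → adm e b := by
  unfold adm; decide

/-- Spin-summed occupations of the ground tensors. -/
theorem occ_sum (e : Fin 5) (he : 2 ≤ e) (s : Fin 2) (b : Fin 5) :
    5 * ∑ σ, occ e s (b, σ) =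
      if b = 0 then 2 else if b = 1 then alpha else if b = e then 1 else beta := by
  have hs : (0 : ℝ) < 1 + 2 * t5 ^ 2 := by positivity
  have hn := eta5_norm
  have hsq := eta5_sq
  have hA : 240 * eta5 ^ 2 = alpha := by
    rw [hsq]; unfold alpha; field_simp; norm_num
  have hB : 240 * (eta5 * t5) ^ 2 = beta := by
    rw [mul_pow, hsq]; unfold beta; field_simp; norm_num
  have hco : ∀ a, co5 a ^ 2 = if a = 1 then eta5 ^ 2 else (eta5 * t5) ^ 2 := by
    intro a; unfold co5; split_ifs <;> rfl
  have tot : (∑ a : Fin 5, if adm e a then co5 a ^ 2 else 0) =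
      eta5 ^ 2 + ((eta5 * t5) ^ 2 + (eta5 * t5) ^ 2) := by
    rw [← sum_adm e he]
    refine Finset.sum_congr rfl fun a _ => ?_
    rw [hco]
  have htot : 120 * (∑ a : Fin 5, if adm e a then co5 a ^ 2 else 0) = 1 := by
    rw [tot, ← hn]; ring
  have h1 : ∀ σ, occ e s (b, σ) = 24 * ∑ a : Fin 5,
      if adm e a ∧ (b = 0 ∨ b = a ∨ (b = e ∧ σ = s)) then co5 a ^ 2 else 0 := by
    intro σ
    unfold occ
    congr 1
    refine Finset.sum_congr rfl fun a _ => ?_
    by_cases h : adm e a ∧ mem5 a e s (b, σ)
    · rw [if_pos h, if_pos ((occ_eval e s b σ he a).1 h)]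
    · rw [if_neg h, if_neg (fun h' => h ((occ_eval e s b σ he a).2 h'))]
  simp only [h1, Fin.sum_univ_two]
  by_cases hb0 : b = 0
  · rw [if_pos hb0]
    have h2 : ∀ (σ : Fin 2) (a : Fin 5),
        (adm e a ∧ (b = 0 ∨ b = a ∨ (b = e ∧ σ = s))) ↔ adm e a := fun σ a =>
      ⟨fun h => h.1, fun h => ⟨h, Or.inl hb0⟩⟩
    simp only [h2]
    linarith
  rw [if_neg hb0]
  by_cases hb1 : b = 1
  · rw [if_pos hb1]
    have hbe : b ≠ e := by
      rw [hb1]; rintro rfl; exact absurd he (by decide)
    have h2 : ∀ (σ : Fin 2) (a : Fin 5),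
        (adm e a ∧ (b = 0 ∨ b = a ∨ (b = e ∧ σ = s))) ↔ a = 1 := fun σ a =>
      ⟨fun h => by
        rcases h.2 with h | h | h
        · exact absurd h hb0
        · rw [← h, hb1]
        · exact absurd h.1 hbe, fun h => ⟨Or.inl h, Or.inr (Or.inl (by rw [h, hb1]))⟩⟩
    simp only [h2, Finset.sum_ite_eq', Finset.mem_univ, if_true, hco]
    linarith
  rw [if_neg hb1]
  by_cases hbe : b = e
  · rw [if_pos hbe]
    have h2 : ∀ (σ : Fin 2) (a : Fin 5),
        (adm e a ∧ (b = 0 ∨ b = a ∨ (b = e ∧ σ = s))) ↔ (adm e a ∧ σ = s) := fun σ a =>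
      ⟨fun h => by
        rcases h.2 with h' | h' | h'
        · exact absurd h' hb0
        · exact absurd (hbe.symm.trans h') (adm_ne_e e a he h.1)
        · exact ⟨h.1, h'.2⟩, fun h => ⟨h.1, Or.inr (Or.inr ⟨hbe, h.2⟩)⟩⟩
    simp only [h2]
    have h3 : ∀ σ : Fin 2, (∑ a : Fin 5, if adm e a ∧ σ = s then co5 a ^ 2 else 0) =
        if σ = s then (∑ a : Fin 5, if adm e a then co5 a ^ 2 else 0) else 0 := by
      intro σ
      by_cases hσ : σ = s
      · simp only [hσ, and_true, if_true]
      · simp only [hσ, and_false, if_false, Finset.sum_const_zero]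
    simp only [h3]
    have h4 : s = 0 ∨ s = 1 := fin2_cases s
    rcases h4 with rfl | rfl
    · rw [if_pos rfl, if_neg (by decide)]
      linarith
    · rw [if_neg (by decide), if_pos rfl]
      linarith
  · rw [if_neg hbe]
    have h2 : ∀ (σ : Fin 2) (a : Fin 5),
        (adm e a ∧ (b = 0 ∨ b = a ∨ (b = e ∧ σ = s))) ↔ a = b := fun σ a =>
      ⟨fun h => by
        rcases h.2 with h | h | h
        · exact absurd h hb0
        · exact h.symm
        · exact absurd h.1 hbe, fun h => ⟨by
          rw [h]; exact adm_of e b he hb0 hb1 hbe, Or.inr (Or.inl h.symm)⟩⟩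
    simp only [h2, Finset.sum_ite_eq', Finset.mem_univ, if_true, hco, if_neg hb1]
    linarith

end

end Vale.Agent.P363.H979.CI
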