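import Vale.Agent.P363.H979.CI.PairCases

/-!
Reduction of the five-electron problem to three shell electrons (real curried arrays).
-/

namespace Vale.Agent.P363.H979.CI

noncomputable section

variable {D : Fin 5 → Fin 5 → Fin 5 → Fin 5 → ℝ}

/-- Real antisymmetric arrays with five slots. -/
structure Anti5 (c : SO → SO → SO → SO → SO → ℝ) : Prop where
  s1 : ∀ p q r s t, c q p r s t = - c p q r s t
  s2 : ∀ p q r s t, c p r q s t = - c p q r s t
  s3 : ∀ p q r s t, c p q s r t = - c p q r s t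
  s4 : ∀ p q r s t, c p q r t s = - c p q r s t
  core1 : ∀ p q r s t, p ≠ o1 → q ≠ o1 → r ≠ o1 → s ≠ o1 → t ≠ o1 → c p q r s t = 0
  core2 : ∀ p q r s t, p ≠ o2 → q ≠ o2 → r ≠ o2 → s ≠ o2 → t ≠ o2 → c p q r s t = 0

namespace Anti5

variable {c : SO → SO → SO → SO → SO → ℝ} (h : Anti5 c)
include h

theorem d12 (p r s t) : c p p r s t = 0 := by linarith [h.s1 p p r s t]
theorem d23 (p q s t) : c p q q s t = 0 := by linarith [h.s2 p q q s t]
theorem d34 (p q r t) : c p q r r t = 0 := by linarith [h.s3 p q r r t]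
theorem d45 (p q r s) : c p q r s s = 0 := by linarith [h.s4 p q r s s]
theorem d13 (p q s t) : c p q p s t = 0 := by rw [h.s2]; rw [h.d12]; simp
theorem d24 (p q r t) : c p q r q t = 0 := by rw [h.s3]; rw [h.d23]; simp
theorem d35 (p q r s) : c p q r s r = 0 := by rw [h.s4]; rw [h.d34]; simp
theorem d14 (p q r t) : c p q r p t = 0 := by rw [h.s3]; rw [h.d13]; simp
theorem d25 (p q r s) : c p q r s q = 0 := by rw [h.s4]; rw [h.d24]; simp
theorem d15 (p q r s) : c p q r s p = 0 := by rw [h.s4]; rw [h.d14]; simp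

/-- moving two labels over two others. -/
theorem move2 (p q r s t) : c p q r s t = c r s p q t := by
  rw [h.s2 p r q s t, h.s1 r p q s t, h.s3 r p s q t, h.s2 r s p q t]
  ring

/-- cyclic move of the first three labels -/
theorem cyc3 (p q r s t) : c p q r s t = c r p q s t := by
  rw [h.s2 p r q s t, h.s1 r p q s t]
  ring

end Anti5

/-- The shell array of `c`. -/
def sh5 (c : SO → SO → SO → SO → SO → ℝ) (p q r : Sh) : ℝ := c o1 o2 (em p) (em q) (em r)

/-- Squared norm. -/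
def nr5 (c : SO → SO → SO → SO → SO → ℝ) : ℝ := ∑ r, ∑ s, ∑ t, np (fun p q => c p q r s t)

/-- Repulsion form, real curried version. -/
def W5 (D : Fin 5 → Fin 5 → Fin 5 → Fin 5 → ℝ) (c : SO → SO → SO → SO → SO → ℝ) : ℝ :=
  10 * ∑ r, ∑ s, ∑ t, Vf D (fun p q => c p q r s t)

/-- Squared norm of a shell array. -/
def nS3 (u : Sh → Sh → Sh → ℝ) : ℝ := ∑ r, ∑ s, ∑ t, u r s t ^ 2

/-- Shell form for three electrons. -/
def QS3 (u : Sh → Sh → Sh → ℝ) : ℝ :=
  3 * (∑ q, ∑ r, ∑ s, ep q.1 * u q r s ^ 2) + 3 * ∑ r, VS (fun p q => u p q r)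

theorem Vf_neg (t : SO → SO → ℝ) : Vf D (fun p q => - t p q) = Vf D t := by
  unfold Vf
  refine Finset.sum_congr rfl fun p _ => Finset.sum_congr rfl fun q _ =>
    Finset.sum_congr rfl fun p' _ => Finset.sum_congr rfl fun q' _ => by ring

theorem np_neg (t : SO → SO → ℝ) : np (fun p q => - t p q) = np t := by
  unfold np
  refine Finset.sum_congr rfl fun p _ => Finset.sum_congr rfl fun q _ => by ring

theorem Vf_zero : Vf D (fun _ _ => 0) = 0 := by
  unfold Vf
  simp

theorem np_zero : np (fun _ _ => 0) = 0 := by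
  unfold np
  simp

theorem nr5_eq {c : SO → SO → SO → SO → SO → ℝ} (h : Anti5 c) : nr5 c = 20 * nS3 (sh5 c) := by
  unfold nr5
  rw [sum3_sym]
  · have e3 : ∀ r s t : Sh, np (fun p q => c p q (em r) (em s) (em t)) =
        2 * sh5 c r s t ^ 2 := fun r s t =>
      np3 _ (fun p q => h.s1 _ _ _ _ _)
        (fun p q => h.core1 _ _ _ _ _ (em_ne_o1 _) (em_ne_o1 _) (em_ne_o1 _) (em_ne_o1 _)
          (em_ne_o1 _))
        (fun q => h.core2 _ _ _ _ _ o1_ne_o2 (em_ne_o2 _) (em_ne_o2 _) (em_ne_o2 _) (em_ne_o2 _))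
        (fun q => h.core1 _ _ _ _ _ o1_ne_o2.symm (em_ne_o1 _) (em_ne_o1 _) (em_ne_o1 _)
          (em_ne_o1 _))
    have e1 : ∀ r s : Sh, np (fun p q => c p q o1 (em r) (em s)) =
        2 * ∑ q : Sh, sh5 c q r s ^ 2 := by
      intro r s
      rw [np1 (fun p q => c p q o1 (em r) (em s)) (fun p q => h.s1 _ _ _ _ _)
        (fun p q => h.core2 _ _ _ _ _ (em_ne_o2 _) (em_ne_o2 _) o1_ne_o2 (em_ne_o2 _)
          (em_ne_o2 _))
        (fun q => h.d13 _ _ _ _)]
      congr 1
      refine Finset.sum_congr rfl fun q _ => ?_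
      rw [h.cyc3]; rfl
    have e2 : ∀ r s : Sh, np (fun p q => c p q o2 (em r) (em s)) =
        2 * ∑ q : Sh, sh5 c q r s ^ 2 := by
      intro r s
      rw [np2 (fun p q => c p q o2 (em r) (em s)) (fun p q => h.s1 _ _ _ _ _)
        (fun p q => h.core1 _ _ _ _ _ (em_ne_o1 _) (em_ne_o1 _) o1_ne_o2.symm (em_ne_o1 _)
          (em_ne_o1 _))
        (fun q => h.d13 _ _ _ _)]
      congr 1
      refine Finset.sum_congr rfl fun q _ => ?_
      rw [h.s2 o1 o2 (em q)]
      show (- c o1 o2 (em q) (em r) (em s)) ^ 2 = _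
      rw [neg_sq]; rfl
    have e0 : ∀ r : Sh, np (fun p q => c p q o1 o2 (em r)) =
        ∑ p : Sh, ∑ q : Sh, sh5 c p q r ^ 2 := by
      intro r
      rw [np0 (fun p q => c p q o1 o2 (em r)) (fun p q => h.s1 _ _ _ _ _) (fun q => h.d13 _ _ _ _) (fun q => h.d14 _ _ _ _)]
      refine Finset.sum_congr rfl fun p _ => Finset.sum_congr rfl fun q _ => ?_
      rw [h.move2]; rfl
    simp only [e3, e1, e2, e0]
    have r1 : ∑ r : Sh, ∑ s : Sh, ∑ t : Sh, 2 * sh5 c r s t ^ 2 = 2 * nS3 (sh5 c) := by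
      unfold nS3
      simp only [Finset.mul_sum]
    have r2 : ∑ r : Sh, ∑ s : Sh, 2 * ∑ q : Sh, sh5 c q r s ^ 2 = 2 * nS3 (sh5 c) := by
      unfold nS3
      rw [Finset.mul_sum]
      have : ∀ r : Sh, ∑ s : Sh, 2 * ∑ q : Sh, sh5 c q r s ^ 2 =
          2 * ∑ q : Sh, ∑ s : Sh, sh5 c q r s ^ 2 := by
        intro r
        rw [← Finset.mul_sum, Finset.sum_comm]
      simp only [this]
      rw [← Finset.mul_sum, Finset.sum_comm, Finset.mul_sum]
    have r3 : ∑ r : Sh, ∑ p : Sh, ∑ q : Sh, sh5 c p q r ^ 2 = nS3 (sh5 c) := by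
      unfold nS3
      rw [Finset.sum_comm]
      refine Finset.sum_congr rfl fun p _ => ?_
      rw [Finset.sum_comm]
    rw [r1, r2, r3]
    ring
  · intro r s t
    rw [show (fun p q => c p q r s t) = fun p q => - c p q s r t from
      funext fun p => funext fun q => h.s3 _ _ _ _ _]
    exact np_neg _
  · intro r s t
    rw [show (fun p q => c p q r s t) = fun p q => - c p q r t s from
      funext fun p => funext fun q => h.s4 _ _ _ _ _]
    exact np_neg _
  · intro t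
    rw [show (fun p q => c p q o1 o1 t) = fun _ _ => 0 from
      funext fun p => funext fun q => h.d34 _ _ _ _]
    exact np_zero
  · intro t
    rw [show (fun p q => c p q o2 o2 t) = fun _ _ => 0 from
      funext fun p => funext fun q => h.d34 _ _ _ _]
    exact np_zero

theorem W5_eq (T : Table D) {c : SO → SO → SO → SO → SO → ℝ} (h : Anti5 c) :
    W5 D c = 20 * (D 0 0 0 0 * nS3 (sh5 c) + QS3 (sh5 c)) := by
  unfold W5
  rw [sum3_sym]
  · have e3 : ∀ r s t : Sh, Vf D (fun p q => c p q (em r) (em s) (em t)) =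
        2 * D 0 0 0 0 * sh5 c r s t ^ 2 := fun r s t =>
      pair3 _ (fun p q => h.s1 _ _ _ _ _)
        (fun p q => h.core1 _ _ _ _ _ (em_ne_o1 _) (em_ne_o1 _) (em_ne_o1 _) (em_ne_o1 _)
          (em_ne_o1 _))
        (fun q => h.core2 _ _ _ _ _ o1_ne_o2 (em_ne_o2 _) (em_ne_o2 _) (em_ne_o2 _) (em_ne_o2 _))
        (fun q => h.core1 _ _ _ _ _ o1_ne_o2.symm (em_ne_o1 _) (em_ne_o1 _) (em_ne_o1 _)
          (em_ne_o1 _))
    have e1 : ∀ r s : Sh, Vf D (fun p q => c p q o1 (em r) (em s)) =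
        2 * (∑ b : Fin 4, Jc b * sh5 c (b, 0) r s ^ 2) +
        2 * ∑ b : Fin 4, (Jc b - Kc b) * sh5 c (b, 1) r s ^ 2 := by
      intro r s
      rw [pair1 T (fun p q => c p q o1 (em r) (em s)) (fun p q => h.s1 _ _ _ _ _)
        (fun p q => h.core2 _ _ _ _ _ (em_ne_o2 _) (em_ne_o2 _) o1_ne_o2 (em_ne_o2 _)
          (em_ne_o2 _))
        (fun q => h.d13 _ _ _ _)]
      have e : ∀ q : Sh, c o2 (em q) o1 (em r) (em s) = sh5 c q r s := fun q => by
        rw [h.cyc3]; rfl
      simp only [e]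
    have e2 : ∀ r s : Sh, Vf D (fun p q => c p q o2 (em r) (em s)) =
        2 * (∑ b : Fin 4, Jc b * sh5 c (b, 1) r s ^ 2) +
        2 * ∑ b : Fin 4, (Jc b - Kc b) * sh5 c (b, 0) r s ^ 2 := by
      intro r s
      rw [pair2 T (fun p q => c p q o2 (em r) (em s)) (fun p q => h.s1 _ _ _ _ _)
        (fun p q => h.core1 _ _ _ _ _ (em_ne_o1 _) (em_ne_o1 _) o1_ne_o2.symm (em_ne_o1 _)
          (em_ne_o1 _))
        (fun q => h.d13 _ _ _ _)]
      have e : ∀ q : Sh, c o1 (em q) o2 (em r) (em s) ^ 2 = sh5 c q r s ^ 2 := fun q => by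
        rw [h.s2 o1 o2 (em q), neg_sq]; rfl
      simp only [e]
    have e0 : ∀ r : Sh, Vf D (fun p q => c p q o1 o2 (em r)) =
        VS (fun p q => sh5 c p q r) := by
      intro r
      rw [pair0 T (fun p q => c p q o1 o2 (em r)) (fun p q => h.s1 _ _ _ _ _)
        (fun q => h.d13 _ _ _ _) (fun q => h.d14 _ _ _ _)]
      have e : ∀ p q : Sh, c (em p) (em q) o1 o2 (em r) = sh5 c p q r := fun p q => by
        rw [h.move2]; rfl
      simp only [e]
    simp only [e3, e1, e2, e0]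
    have r1 : ∑ r : Sh, ∑ s : Sh, ∑ t : Sh, 2 * D 0 0 0 0 * sh5 c r s t ^ 2 =
        2 * D 0 0 0 0 * nS3 (sh5 c) := by
      unfold nS3
      simp only [Finset.mul_sum]
    have r2 : 3 * (∑ r : Sh, ∑ s : Sh, (2 * (∑ b : Fin 4, Jc b * sh5 c (b, 0) r s ^ 2) +
        2 * ∑ b : Fin 4, (Jc b - Kc b) * sh5 c (b, 1) r s ^ 2)) +
        3 * (∑ r : Sh, ∑ s : Sh, (2 * (∑ b : Fin 4, Jc b * sh5 c (b, 1) r s ^ 2) +
        2 * ∑ b : Fin 4, (Jc b - Kc b) * sh5 c (b, 0) r s ^ 2)) =
        6 * (∑ q : Sh, ∑ r : Sh, ∑ s : Sh, ep q.1 * sh5 c q r s ^ 2) := by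
      rw [← mul_add, ← Finset.sum_add_distrib]
      have e : ∀ r : Sh, (∑ s : Sh, (2 * (∑ b : Fin 4, Jc b * sh5 c (b, 0) r s ^ 2) +
          2 * ∑ b : Fin 4, (Jc b - Kc b) * sh5 c (b, 1) r s ^ 2)) +
          (∑ s : Sh, (2 * (∑ b : Fin 4, Jc b * sh5 c (b, 1) r s ^ 2) +
          2 * ∑ b : Fin 4, (Jc b - Kc b) * sh5 c (b, 0) r s ^ 2)) =
          2 * ∑ s : Sh, ∑ q : Sh, ep q.1 * sh5 c q r s ^ 2 := by
        intro r
        rw [← Finset.sum_add_distrib, Finset.mul_sum]
        refine Finset.sum_congr rfl fun s _ => ?_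
        rw [Fintype.sum_prod_type, Finset.mul_sum]
        simp only [Fin.sum_univ_two, ep_eq]
        simp only [Finset.mul_sum]
        rw [← Finset.sum_add_distrib, ← Finset.sum_add_distrib, ← Finset.sum_add_distrib]
        refine Finset.sum_congr rfl fun b _ => by ring
      simp only [e]
      rw [← Finset.mul_sum]
      have e' : ∑ r : Sh, ∑ s : Sh, ∑ q : Sh, ep q.1 * sh5 c q r s ^ 2 =
          ∑ q : Sh, ∑ r : Sh, ∑ s : Sh, ep q.1 * sh5 c q r s ^ 2 := by
        rw [Finset.sum_comm]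
        have : ∀ s : Sh, ∑ r : Sh, ∑ q : Sh, ep q.1 * sh5 c q r s ^ 2 =
            ∑ q : Sh, ∑ r : Sh, ep q.1 * sh5 c q r s ^ 2 := fun s => Finset.sum_comm
        simp only [this]
        rw [Finset.sum_comm]
        refine Finset.sum_congr rfl fun q _ => Finset.sum_comm
      rw [e']
      ring
    have r3 : ∀ x y z w : ℝ, x + y + z + w = x + (y + z) + w := fun x y z w => by ring
    rw [r1, r3, r2]
    unfold QS3
    ring
  · intro r s t
    rw [show (fun p q => c p q r s t) = fun p q => - c p q s r t from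
      funext fun p => funext fun q => h.s3 _ _ _ _ _]
    exact Vf_neg _
  · intro r s t
    rw [show (fun p q => c p q r s t) = fun p q => - c p q r t s from
      funext fun p => funext fun q => h.s4 _ _ _ _ _]
    exact Vf_neg _
  · intro t
    rw [show (fun p q => c p q o1 o1 t) = fun _ _ => 0 from
      funext fun p => funext fun q => h.d34 _ _ _ _]
    exact Vf_zero
  · intro t
    rw [show (fun p q => c p q o2 o2 t) = fun _ _ => 0 from
      funext fun p => funext fun q => h.d34 _ _ _ _]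
    exact Vf_zero

end

end Vale.Agent.P363.H979.CI
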