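import Vale.Agent.P363.H979.CI.Shell

/-!
Lower bounds for the orbital forms in the spin sectors: three shell electrons.
-/

namespace Vale.Agent.P363.H979.CI

noncomputable section

/-- Effective one-body energies of `2s` and `2p` in the field of the `1s²` core. -/
def ep (a : Fin 4) : ℝ := if a = 0 then 290 / 729 else 3074 / 6561

/-- Form in the sector with two electrons of one spin (labels `a b`, antisymmetric) and one of the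
other spin (label `c`). -/
def QB (B : Fin 4 → Fin 4 → Fin 4 → ℝ) : ℝ :=
  ∑ a, ∑ b, ∑ c, (ep a + ep b + ep c) * B a b c ^ 2 +
    ∑ c, VM (fun a b => B a b c) + 2 * ∑ b, VM (fun a c => B a b c)

/-- Squared norm of an array. -/
def n3 (B : Fin 4 → Fin 4 → Fin 4 → ℝ) : ℝ := ∑ a, ∑ b, ∑ c, B a b c ^ 2

/-- Ground component with label `x`. -/
def gx (B : Fin 4 → Fin 4 → Fin 4 → ℝ) : ℝ := B 0 1 0 + t5 * B 2 1 2 + t5 * B 3 1 3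
/-- Ground component with label `y`. -/
def gy (B : Fin 4 → Fin 4 → Fin 4 → ℝ) : ℝ := B 0 2 0 + t5 * B 1 2 1 + t5 * B 3 2 3
/-- Ground component with label `z`. -/
def gz (B : Fin 4 → Fin 4 → Fin 4 → ℝ) : ℝ := B 0 3 0 + t5 * B 1 3 1 + t5 * B 2 3 2

theorem blockS (d g x y z : ℝ) (hd : 17526 / 10000 + g ≤ d) (hd2 : 17526 / 10000 - 2 * g ≤ d) :
    17526 / 10000 * (x ^ 2 + y ^ 2 + z ^ 2) ≤
    d * (x ^ 2 + y ^ 2 + z ^ 2) + 2 * g * (x * y + x * z + y * z) := by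
  have h : d * (x ^ 2 + y ^ 2 + z ^ 2) + 2 * g * (x * y + x * z + y * z) -
      17526 / 10000 * (x ^ 2 + y ^ 2 + z ^ 2) =
      (d - 17526 / 10000 + 2 * g) * ((x + y + z) ^ 2 / 3) +
      (d - 17526 / 10000 - g) * (((x - y) ^ 2 + (x - z) ^ 2 + (y - z) ^ 2) / 3) := by ring
  have h1 : 0 ≤ (d - 17526 / 10000 + 2 * g) * ((x + y + z) ^ 2 / 3) :=
    mul_nonneg (by linarith) (by positivity)
  have h2 : 0 ≤ (d - 17526 / 10000 - g) * (((x - y) ^ 2 + (x - z) ^ 2 + (y - z) ^ 2) / 3) :=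
    mul_nonneg (by linarith) (by positivity)
  linarith

/-- The explicit form of `QB`. -/
theorem QB_eq (B : Fin 4 → Fin 4 → Fin 4 → ℝ) (hB : ∀ a b c, B a b c = - B b a c) :
    QB B = 2 * (
      (A5 * B 0 1 0 ^ 2 + B5 * (B 2 1 2 ^ 2 + B 3 1 3 ^ 2) +
        2 * be * (B 0 1 0 * B 2 1 2 + B 0 1 0 * B 3 1 3) + 2 * ga * (B 2 1 2 * B 3 1 3)) +
      (A5 * B 0 2 0 ^ 2 + B5 * (B 1 2 1 ^ 2 + B 3 2 3 ^ 2) +
        2 * be * (B 0 2 0 * B 1 2 1 + B 0 2 0 * B 3 2 3) + 2 * ga * (B 1 2 1 * B 3 2 3)) +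
      (A5 * B 0 3 0 ^ 2 + B5 * (B 1 3 1 ^ 2 + B 2 3 2 ^ 2) +
        2 * be * (B 0 3 0 * B 1 3 1 + B 0 3 0 * B 2 3 2) + 2 * ga * (B 1 3 1 * B 2 3 2)) +
      (3832637 / 2099520 * (B 0 1 1 ^ 2 + B 0 2 2 ^ 2 + B 0 3 3 ^ 2) +
        2 * ga * (B 0 1 1 * B 0 2 2 + B 0 1 1 * B 0 3 3 + B 0 2 2 * B 0 3 3)) +
      (15153401 / 8398080 * (B 0 1 2 ^ 2 + (-B 0 2 1) ^ 2) + 3062173 / 1679616 * B 1 2 0 ^ 2 -
        2 * ga * (B 0 1 2 * (-B 0 2 1)) - 2 * be * (B 0 1 2 * B 1 2 0 + (-B 0 2 1) * B 1 2 0)) +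
      (15153401 / 8398080 * (B 0 1 3 ^ 2 + (-B 0 3 1) ^ 2) + 3062173 / 1679616 * B 1 3 0 ^ 2 -
        2 * ga * (B 0 1 3 * (-B 0 3 1)) - 2 * be * (B 0 1 3 * B 1 3 0 + (-B 0 3 1) * B 1 3 0)) +
      (15153401 / 8398080 * (B 0 2 3 ^ 2 + (-B 0 3 2) ^ 2) + 3062173 / 1679616 * B 2 3 0 ^ 2 -
        2 * ga * (B 0 2 3 * (-B 0 3 2)) - 2 * be * (B 0 2 3 * B 2 3 0 + (-B 0 3 2) * B 2 3 0)) +
      (5371579 / 2799360 * (B 1 2 3 ^ 2 + (-B 1 3 2) ^ 2 + B 2 3 1 ^ 2) +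
        2 * (-ga) * (B 1 2 3 * (-B 1 3 2) + B 1 2 3 * B 2 3 1 + (-B 1 3 2) * B 2 3 1))) := by
  have hd : ∀ a c, B a a c = 0 := fun a c => by linarith [hB a a c]
  have h10 : ∀ c, B 1 0 c = - B 0 1 c := fun c => hB 1 0 c
  have h20 : ∀ c, B 2 0 c = - B 0 2 c := fun c => hB 2 0 c
  have h30 : ∀ c, B 3 0 c = - B 0 3 c := fun c => hB 3 0 c
  have h21 : ∀ c, B 2 1 c = - B 1 2 c := fun c => hB 2 1 c
  have h31 : ∀ c, B 3 1 c = - B 1 3 c := fun c => hB 3 1 c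
  have h32 : ∀ c, B 3 2 c = - B 2 3 c := fun c => hB 3 2 c
  simp only [QB, VM_eq, Fin.sum_univ_four, hd, h10, h20, h30, h21, h31, h32, ep, Fin.isValue,
    Fin.reduceEq, if_true, if_false, A5, B5, be, ga]
  ring

theorem n3_eq (B : Fin 4 → Fin 4 → Fin 4 → ℝ) (hB : ∀ a b c, B a b c = - B b a c) :
    n3 B = 2 * (
      (B 0 1 0 ^ 2 + B 2 1 2 ^ 2 + B 3 1 3 ^ 2) +
      (B 0 2 0 ^ 2 + B 1 2 1 ^ 2 + B 3 2 3 ^ 2) +
      (B 0 3 0 ^ 2 + B 1 3 1 ^ 2 + B 2 3 2 ^ 2) +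
      (B 0 1 1 ^ 2 + B 0 2 2 ^ 2 + B 0 3 3 ^ 2) +
      (B 0 1 2 ^ 2 + (-B 0 2 1) ^ 2 + B 1 2 0 ^ 2) +
      (B 0 1 3 ^ 2 + (-B 0 3 1) ^ 2 + B 1 3 0 ^ 2) +
      (B 0 2 3 ^ 2 + (-B 0 3 2) ^ 2 + B 2 3 0 ^ 2) +
      (B 1 2 3 ^ 2 + (-B 1 3 2) ^ 2 + B 2 3 1 ^ 2)) := by
  have hd : ∀ a c, B a a c = 0 := fun a c => by linarith [hB a a c]
  have h10 : ∀ c, B 1 0 c = - B 0 1 c := fun c => hB 1 0 c
  have h20 : ∀ c, B 2 0 c = - B 0 2 c := fun c => hB 2 0 c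
  have h30 : ∀ c, B 3 0 c = - B 0 3 c := fun c => hB 3 0 c
  have h21 : ∀ c, B 2 1 c = - B 1 2 c := fun c => hB 2 1 c
  have h31 : ∀ c, B 3 1 c = - B 1 3 c := fun c => hB 3 1 c
  have h32 : ∀ c, B 3 2 c = - B 2 3 c := fun c => hB 3 2 c
  simp only [n3, Fin.sum_univ_four, hd, h10, h20, h30, h21, h31, h32]
  ring

theorem blockT (x y z : ℝ) :
    17526 / 10000 * (x ^ 2 + y ^ 2 + z ^ 2) ≤
    15153401 / 8398080 * (x ^ 2 + y ^ 2) + 3062173 / 1679616 * z ^ 2 -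
        2 * ga * (x * y) - 2 * be * (x * z + y * z) := by
  have h : 15153401 / 8398080 * (x ^ 2 + y ^ 2) + 3062173 / 1679616 * z ^ 2 -
        2 * ga * (x * y) - 2 * be * (x * z + y * z) -
      17526 / 10000 * (x ^ 2 + y ^ 2 + z ^ 2) =
      (3062173 / 1679616 - 2 * be - 17526 / 10000) * ((x + y + z) ^ 2 / 3) +
      (15153401 / 8398080 + ga - 17526 / 10000) * ((x - y) ^ 2 / 2) +
      (15153401 / 8398080 - ga + 2 * be - 17526 / 10000) * ((x + y - 2 * z) ^ 2 / 6) := by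
    unfold be ga
    ring
  have h1 : 0 ≤ (3062173 / 1679616 - 2 * be - 17526 / 10000 : ℝ) := by unfold be; norm_num
  have h2 : 0 ≤ (15153401 / 8398080 + ga - 17526 / 10000 : ℝ) := by unfold ga; norm_num
  have h3 : 0 ≤ (15153401 / 8398080 - ga + 2 * be - 17526 / 10000 : ℝ) := by
    unfold ga be; norm_num
  have : 0 ≤ (3062173 / 1679616 - 2 * be - 17526 / 10000) * ((x + y + z) ^ 2 / 3) +
      (15153401 / 8398080 + ga - 17526 / 10000) * ((x - y) ^ 2 / 2) +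
      (15153401 / 8398080 - ga + 2 * be - 17526 / 10000) * ((x + y - 2 * z) ^ 2 / 6) := by
    positivity
  linarith

/-- Lower bound in the spin sector `up up down`: the ground level has exactly three
components, `gx`, `gy`, `gz`, and the spectral gap is at least `1/20`. -/
theorem QB_ge (B : Fin 4 → Fin 4 → Fin 4 → ℝ) (hB : ∀ a b c, B a b c = - B b a c) :
    w5 * n3 B + 1 / 20 * (n3 B - 2 * (gx B ^ 2 + gy B ^ 2 + gz B ^ 2) / (1 + 2 * t5 ^ 2)) ≤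
      QB B := by
  rw [QB_eq B hB, n3_eq B hB]
  have hx := block5 (B 0 1 0) (B 2 1 2) (B 3 1 3)
  have hy := block5 (B 0 2 0) (B 1 2 1) (B 3 2 3)
  have hz := block5 (B 0 3 0) (B 1 3 1) (B 2 3 2)
  have hS := blockS (3832637 / 2099520) ga (B 0 1 1) (B 0 2 2) (B 0 3 3)
    (by unfold ga; norm_num) (by unfold ga; norm_num)
  have hP := blockS (5371579 / 2799360) (-ga) (B 1 2 3) (-B 1 3 2) (B 2 3 1)
    (by unfold ga; norm_num) (by unfold ga; norm_num)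
  have h12 := blockT (B 0 1 2) (-B 0 2 1) (B 1 2 0)
  have h13 := blockT (B 0 1 3) (-B 0 3 1) (B 1 3 0)
  have h23 := blockT (B 0 2 3) (-B 0 3 2) (B 2 3 0)
  have hw : w5 + 1 / 20 ≤ 17526 / 10000 := by have := w5_bounds; linarith [this.2]
  have lift : ∀ x y z : ℝ, (w5 + 1 / 20) * (x ^ 2 + y ^ 2 + z ^ 2) ≤
      17526 / 10000 * (x ^ 2 + y ^ 2 + z ^ 2) := fun x y z =>
    mul_le_mul_of_nonneg_right hw (by positivity)
  have l1 := lift (B 0 1 1) (B 0 2 2) (B 0 3 3)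
  have l2 := lift (B 1 2 3) (-B 1 3 2) (B 2 3 1)
  have l3 := lift (B 0 1 2) (-B 0 2 1) (B 1 2 0)
  have l4 := lift (B 0 1 3) (-B 0 3 1) (B 1 3 0)
  have l5 := lift (B 0 2 3) (-B 0 3 2) (B 2 3 0)
  have e : 2 * (gx B ^ 2 + gy B ^ 2 + gz B ^ 2) / (1 + 2 * t5 ^ 2) =
      2 * (gx B ^ 2 / (1 + 2 * t5 ^ 2) + gy B ^ 2 / (1 + 2 * t5 ^ 2) +
        gz B ^ 2 / (1 + 2 * t5 ^ 2)) := by ring
  rw [e]
  unfold gx gy gz
  linarith

/-- Form in the spin sector with three electrons of equal spin. -/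
def QA (A : Fin 4 → Fin 4 → Fin 4 → ℝ) : ℝ :=
  ∑ a, ∑ b, ∑ c, (ep a + ep b + ep c) * A a b c ^ 2 + 3 * ∑ c, VM (fun a b => A a b c)

theorem QA_ge (A : Fin 4 → Fin 4 → Fin 4 → ℝ) (h1 : ∀ a b c, A a b c = - A b a c)
    (h2 : ∀ a b c, A a b c = - A a c b) :
    (w5 + 1 / 20) * n3 A ≤ QA A := by
  have hd : ∀ a c, A a a c = 0 := fun a c => by linarith [h1 a a c]
  have hd2 : ∀ a c, A a c c = 0 := fun a c => by linarith [h2 a c c]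
  have hd3 : ∀ a c, A a c a = 0 := fun a c => by rw [h2, hd]; ring
  have h10 : ∀ c, A 1 0 c = - A 0 1 c := fun c => h1 1 0 c
  have h20 : ∀ c, A 2 0 c = - A 0 2 c := fun c => h1 2 0 c
  have h30 : ∀ c, A 3 0 c = - A 0 3 c := fun c => h1 3 0 c
  have h21 : ∀ c, A 2 1 c = - A 1 2 c := fun c => h1 2 1 c
  have h31 : ∀ c, A 3 1 c = - A 1 3 c := fun c => h1 3 1 c
  have h32 : ∀ c, A 3 2 c = - A 2 3 c := fun c => h1 3 2 c
  have k1 : A 0 2 1 = - A 0 1 2 := h2 0 2 1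
  have k2 : A 0 3 1 = - A 0 1 3 := h2 0 3 1
  have k3 : A 0 3 2 = - A 0 2 3 := h2 0 3 2
  have k4 : A 1 3 2 = - A 1 2 3 := h2 1 3 2
  have cyc : ∀ a b c, A b c a = A a b c := fun a b c => by
    rw [h2 b c a, h1 b a c]; ring
  have k5 : A 1 2 0 = A 0 1 2 := cyc 0 1 2
  have k6 : A 1 3 0 = A 0 1 3 := cyc 0 1 3
  have k7 : A 2 3 0 = A 0 2 3 := cyc 0 2 3
  have k8 : A 2 3 1 = A 1 2 3 := cyc 1 2 3
  have e1 : QA A = 6 * (1481879 / 839808 * (A 0 1 2 ^ 2 + A 0 1 3 ^ 2 + A 0 2 3 ^ 2) +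
      531253 / 279936 * A 1 2 3 ^ 2) := by
    simp only [QA, VM_eq, Fin.sum_univ_four, hd, hd2, hd3, h10, h20, h30, h21, h31, h32, k1, k2,
      k3, k4, k5, k6, k7, k8, ep, Fin.isValue, Fin.reduceEq, if_true, if_false]
    ring
  have e2 : n3 A = 6 * (A 0 1 2 ^ 2 + A 0 1 3 ^ 2 + A 0 2 3 ^ 2 + A 1 2 3 ^ 2) := by
    simp only [n3, Fin.sum_univ_four, hd, hd2, hd3, h10, h20, h30, h21, h31, h32, k1, k2,
      k3, k4, k5, k6, k7, k8]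
    ring
  have hw : w5 + 1 / 20 ≤ 17526 / 10000 := by have := w5_bounds; linarith [this.2]
  rw [e1, e2]
  have h3 : (w5 + 1 / 20) * (A 0 1 2 ^ 2 + A 0 1 3 ^ 2 + A 0 2 3 ^ 2 + A 1 2 3 ^ 2) ≤
      17526 / 10000 * (A 0 1 2 ^ 2 + A 0 1 3 ^ 2 + A 0 2 3 ^ 2 + A 1 2 3 ^ 2) :=
    mul_le_mul_of_nonneg_right hw (by positivity)
  nlinarith [sq_nonneg (A 0 1 2), sq_nonneg (A 0 1 3), sq_nonneg (A 0 2 3), sq_nonneg (A 1 2 3)]

/-! Two shell electrons. -/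

/-- Form for two shell electrons of opposite spin (no symmetry of the array). -/
def QI (M : Fin 4 → Fin 4 → ℝ) : ℝ := ∑ a, ∑ b, (ep a + ep b) * M a b ^ 2 + VM M

/-- Squared norm. -/
def n2 (M : Fin 4 → Fin 4 → ℝ) : ℝ := ∑ a, ∑ b, M a b ^ 2

/-- Ground component. -/
def gI (M : Fin 4 → Fin 4 → ℝ) : ℝ := M 0 0 + t4 * M 1 1 + t4 * M 2 2 + t4 * M 3 3

theorem QI_ge (M : Fin 4 → Fin 4 → ℝ) :
    w4 * n2 M + 1 / 20 * (n2 M - gI M ^ 2 / (1 + 3 * t4 ^ 2)) ≤ QI M := by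
  have hb := block4 (M 0 0) (M 1 1) (M 2 2) (M 3 3)
  have hw : w4 + 1 / 20 ≤ 9843 / 10000 := by have := w4_bounds; linarith [this.2]
  have pair : ∀ d g x y : ℝ, 9843 / 10000 + g ≤ d → 9843 / 10000 - g ≤ d →
      (w4 + 1 / 20) * (x ^ 2 + y ^ 2) ≤ d * (x ^ 2 + y ^ 2) + 2 * g * (x * y) := by
    intro d g x y h1 h2
    have h3 : (w4 + 1 / 20) * (x ^ 2 + y ^ 2) ≤ 9843 / 10000 * (x ^ 2 + y ^ 2) :=
      mul_le_mul_of_nonneg_right hw (by positivity)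
    have h4 : d * (x ^ 2 + y ^ 2) + 2 * g * (x * y) - 9843 / 10000 * (x ^ 2 + y ^ 2) =
        (d - 9843 / 10000 + g) * ((x + y) ^ 2 / 2) + (d - 9843 / 10000 - g) * ((x - y) ^ 2 / 2) := by
      ring
    have h5 : 0 ≤ (d - 9843 / 10000 + g) * ((x + y) ^ 2 / 2) :=
      mul_nonneg (by linarith) (by positivity)
    have h6 : 0 ≤ (d - 9843 / 10000 - g) * ((x - y) ^ 2 / 2) :=
      mul_nonneg (by linarith) (by positivity)
    linarith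
  have p1 := pair (3454771 / 3359232) be (M 0 1) (M 1 0) (by unfold be; norm_num)
    (by unfold be; norm_num)
  have p2 := pair (3454771 / 3359232) be (M 0 2) (M 2 0) (by unfold be; norm_num)
    (by unfold be; norm_num)
  have p3 := pair (3454771 / 3359232) be (M 0 3) (M 3 0) (by unfold be; norm_num)
    (by unfold be; norm_num)
  have p4 := pair (18671647 / 16796160) ga (M 1 2) (M 2 1) (by unfold ga; norm_num)
    (by unfold ga; norm_num)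
  have p5 := pair (18671647 / 16796160) ga (M 1 3) (M 3 1) (by unfold ga; norm_num)
    (by unfold ga; norm_num)
  have p6 := pair (18671647 / 16796160) ga (M 2 3) (M 3 2) (by unfold ga; norm_num)
    (by unfold ga; norm_num)
  have e1 : QI M = (A4 * M 0 0 ^ 2 + B4 * (M 1 1 ^ 2 + M 2 2 ^ 2 + M 3 3 ^ 2) +
      2 * be * (M 0 0 * M 1 1 + M 0 0 * M 2 2 + M 0 0 * M 3 3) +
      2 * ga * (M 1 1 * M 2 2 + M 1 1 * M 3 3 + M 2 2 * M 3 3)) +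
      (3454771 / 3359232 * (M 0 1 ^ 2 + M 1 0 ^ 2) + 2 * be * (M 0 1 * M 1 0)) +
      (3454771 / 3359232 * (M 0 2 ^ 2 + M 2 0 ^ 2) + 2 * be * (M 0 2 * M 2 0)) +
      (3454771 / 3359232 * (M 0 3 ^ 2 + M 3 0 ^ 2) + 2 * be * (M 0 3 * M 3 0)) +
      (18671647 / 16796160 * (M 1 2 ^ 2 + M 2 1 ^ 2) + 2 * ga * (M 1 2 * M 2 1)) +
      (18671647 / 16796160 * (M 1 3 ^ 2 + M 3 1 ^ 2) + 2 * ga * (M 1 3 * M 3 1)) +
      (18671647 / 16796160 * (M 2 3 ^ 2 + M 3 2 ^ 2) + 2 * ga * (M 2 3 * M 3 2)) := by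
    simp only [QI, VM_eq, Fin.sum_univ_four, ep, Fin.isValue,
      Fin.reduceEq, if_true, if_false, A4, B4, be, ga]
    ring
  have e2 : n2 M = (M 0 0 ^ 2 + M 1 1 ^ 2 + M 2 2 ^ 2 + M 3 3 ^ 2) + (M 0 1 ^ 2 + M 1 0 ^ 2) +
      (M 0 2 ^ 2 + M 2 0 ^ 2) + (M 0 3 ^ 2 + M 3 0 ^ 2) + (M 1 2 ^ 2 + M 2 1 ^ 2) +
      (M 1 3 ^ 2 + M 3 1 ^ 2) + (M 2 3 ^ 2 + M 3 2 ^ 2) := by
    simp only [n2, Fin.sum_univ_four]
    ring
  rw [e1, e2]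
  unfold gI
  linarith

/-- Form for two shell electrons of equal spin. -/
def QJ (M : Fin 4 → Fin 4 → ℝ) : ℝ := ∑ a, ∑ b, (ep a + ep b) * M a b ^ 2 + VM M

theorem QJ_ge (M : Fin 4 → Fin 4 → ℝ) (h : ∀ a b, M a b = - M b a) :
    (w4 + 1 / 20) * n2 M ≤ QJ M := by
  have hd : ∀ a, M a a = 0 := fun a => by linarith [h a a]
  have h10 : M 1 0 = - M 0 1 := h 1 0
  have h20 : M 2 0 = - M 0 2 := h 2 0
  have h30 : M 3 0 = - M 0 3 := h 3 0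
  have h21 : M 2 1 = - M 1 2 := h 2 1
  have h31 : M 3 1 = - M 1 3 := h 3 1
  have h32 : M 3 2 = - M 2 3 := h 3 2
  have e1 : QJ M = 2 * (839089 / 839808 * (M 0 1 ^ 2 + M 0 2 ^ 2 + M 0 3 ^ 2) +
      924725 / 839808 * (M 1 2 ^ 2 + M 1 3 ^ 2 + M 2 3 ^ 2)) := by
    simp only [QJ, VM_eq, Fin.sum_univ_four, hd, h10, h20, h30, h21, h31, h32, ep, Fin.isValue,
      Fin.reduceEq, if_true, if_false]
    ring
  have e2 : n2 M = 2 * (M 0 1 ^ 2 + M 0 2 ^ 2 + M 0 3 ^ 2 + M 1 2 ^ 2 + M 1 3 ^ 2 + M 2 3 ^ 2) := by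
    simp only [n2, Fin.sum_univ_four, hd, h10, h20, h30, h21, h31, h32]
    ring
  have hw : w4 + 1 / 20 ≤ 9843 / 10000 := by have := w4_bounds; linarith [this.2]
  have h3 : (w4 + 1 / 20) *
        (M 0 1 ^ 2 + M 0 2 ^ 2 + M 0 3 ^ 2 + M 1 2 ^ 2 + M 1 3 ^ 2 + M 2 3 ^ 2) ≤
      9843 / 10000 * (M 0 1 ^ 2 + M 0 2 ^ 2 + M 0 3 ^ 2 + M 1 2 ^ 2 + M 1 3 ^ 2 + M 2 3 ^ 2) :=
    mul_le_mul_of_nonneg_right hw (by positivity)
  rw [e1, e2]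
  nlinarith [sq_nonneg (M 0 1), sq_nonneg (M 0 2), sq_nonneg (M 0 3), sq_nonneg (M 1 2),
    sq_nonneg (M 1 3), sq_nonneg (M 2 3)]

end

end Vale.Agent.P363.H979.CI
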