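import Vale.Agent.P363.H979.CI.Blocks
import Mathlib.Algebra.BigOperators.Fin
import Mathlib.Tactic.FinCases
import Mathlib.Tactic.LinearCombination

/-!
The quadratic form of the electron repulsion on the hydrogenic `n = 2` shell: orbital part.
Index `0` is `2s`, indices `1, 2, 3` are `2p_x, 2p_y, 2p_z`.
-/

namespace Vale.Agent.P363.H979.CI

noncomputable section

/-- Coulomb integrals `(a b | c d)` of the hydrogenic `n = 2` shell. -/
def shT (a b c d : Fin 4) : ℝ :=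
  if a = b then
    if c = d then
      if a = 0 then (if c = 0 then 77 / 512 else 83 / 512)
      else if c = 0 then 83 / 512
      else if a = c then 501 / 2560 else 447 / 2560
    else 0
  else if (a = c ∧ b = d) ∨ (a = d ∧ b = c) then
    if a = 0 ∨ b = 0 then 15 / 512 else 27 / 2560
  else 0

/-- Repulsion form on a pair of orbital labels. -/
def VM (M : Fin 4 → Fin 4 → ℝ) : ℝ :=
  ∑ a, ∑ b, ∑ a', ∑ b', M a b * M a' b' * shT a a' b b'

theorem VM_eq (M : Fin 4 → Fin 4 → ℝ) : VM M =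
    77 / 512 * M 0 0 ^ 2 +
    83 / 512 * (M 0 1 ^ 2 + M 0 2 ^ 2 + M 0 3 ^ 2 + M 1 0 ^ 2 + M 2 0 ^ 2 + M 3 0 ^ 2) +
    501 / 2560 * (M 1 1 ^ 2 + M 2 2 ^ 2 + M 3 3 ^ 2) +
    447 / 2560 * (M 1 2 ^ 2 + M 1 3 ^ 2 + M 2 1 ^ 2 + M 2 3 ^ 2 + M 3 1 ^ 2 + M 3 2 ^ 2) +
    2 * (15 / 512) * (M 0 0 * M 1 1 + M 0 0 * M 2 2 + M 0 0 * M 3 3 +
      M 0 1 * M 1 0 + M 0 2 * M 2 0 + M 0 3 * M 3 0) +
    2 * (27 / 2560) * (M 1 1 * M 2 2 + M 1 1 * M 3 3 + M 2 2 * M 3 3 +
      M 1 2 * M 2 1 + M 1 3 * M 3 1 + M 2 3 * M 3 2) := by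
  simp only [VM, Fin.sum_univ_four, shT]
  simp only [Fin.isValue, Fin.reduceEq, if_true, if_false, and_true, and_false, true_and,
    false_and, or_false, false_or, or_true, true_or, and_self, or_self, mul_zero, add_zero,
    zero_add, reduceIte]
  ring

theorem VM_transpose (M : Fin 4 → Fin 4 → ℝ) : VM (fun a b => M b a) = VM M := by
  rw [VM_eq, VM_eq]
  ring

theorem VM_neg (M : Fin 4 → Fin 4 → ℝ) : VM (fun a b => -M a b) = VM M := by
  rw [VM_eq, VM_eq]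
  ring

end

end Vale.Agent.P363.H979.CI
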