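import Vale.Agent.P363.H979.CI.Reduce5

/-!
Three shell electrons: splitting into spin sectors and the lower bound.
-/

namespace Vale.Agent.P363.H979.CI

noncomputable section

/-- Antisymmetric shell arrays with three slots. -/
structure AntiS (u : Sh → Sh → Sh → ℝ) : Prop where
  s1 : ∀ p q r, u q p r = - u p q r
  s2 : ∀ p q r, u p r q = - u p q r

theorem AntiS.cyc {u : Sh → Sh → Sh → ℝ} (h : AntiS u) (p q r) : u p q r = u q r p := by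
  rw [h.s1 q p r, h.s2 q r p]; ring

theorem sum_eq3 (f : Fin 4 → Fin 4 → Fin 4 → ℝ) :
    ∑ a, ∑ b, ∑ c, f a b c = ∑ a, ∑ b, ∑ c, f b a c := Finset.sum_comm

theorem sum_eq3' (f : Fin 4 → Fin 4 → Fin 4 → ℝ) :
    ∑ a, ∑ b, ∑ c, f a b c = ∑ a, ∑ b, ∑ c, f a c b :=
  Finset.sum_congr rfl fun _ _ => Finset.sum_comm

theorem sum_cyc (f : Fin 4 → Fin 4 → Fin 4 → ℝ) :
    ∑ a, ∑ b, ∑ c, f a b c = ∑ a, ∑ b, ∑ c, f b c a := by
  rw [sum_eq3', sum_eq3]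

theorem nS3_eq {u : Sh → Sh → Sh → ℝ} (h : AntiS u) :
    nS3 u = n3 (fun a b c => u (a, 0) (b, 0) (c, 0)) +
      3 * n3 (fun a b c => u (a, 0) (b, 0) (c, 1)) +
      3 * n3 (fun a b c => u (a, 1) (b, 1) (c, 0)) +
      n3 (fun a b c => u (a, 1) (b, 1) (c, 1)) := by
  have e1 : ∀ a b c, u (a, 0) (b, 1) (c, 0) ^ 2 = u (a, 0) (c, 0) (b, 1) ^ 2 := fun a b c => by
    rw [h.s2]; ring
  have e2 : ∀ a b c, u (a, 1) (b, 0) (c, 0) ^ 2 = u (b, 0) (c, 0) (a, 1) ^ 2 := fun a b c => by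
    rw [h.cyc]
  have e3 : ∀ a b c, u (a, 1) (b, 0) (c, 1) ^ 2 = u (a, 1) (c, 1) (b, 0) ^ 2 := fun a b c => by
    rw [h.s2]; ring
  have e4 : ∀ a b c, u (a, 0) (b, 1) (c, 1) ^ 2 = u (b, 1) (c, 1) (a, 0) ^ 2 := fun a b c => by
    rw [h.cyc]
  unfold nS3 n3
  simp only [Fintype.sum_prod_type, Fin.sum_univ_two, Finset.sum_add_distrib, e1, e2, e3, e4]
  rw [← sum_eq3' (fun a b c => u (a, 0) (b, 0) (c, 1) ^ 2),
    ← sum_cyc (fun a b c => u (a, 0) (b, 0) (c, 1) ^ 2),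
    ← sum_eq3' (fun a b c => u (a, 1) (b, 1) (c, 0) ^ 2),
    ← sum_cyc (fun a b c => u (a, 1) (b, 1) (c, 0) ^ 2)]
  ring

theorem one_body {u : Sh → Sh → Sh → ℝ} (h : AntiS u) :
    3 * (∑ q, ∑ r, ∑ s, ep q.1 * u q r s ^ 2) =
      (∑ a, ∑ b, ∑ c, (ep a + ep b + ep c) * u (a, 0) (b, 0) (c, 0) ^ 2) +
      3 * (∑ a, ∑ b, ∑ c, (ep a + ep b + ep c) * u (a, 0) (b, 0) (c, 1) ^ 2) +
      3 * (∑ a, ∑ b, ∑ c, (ep a + ep b + ep c) * u (a, 1) (b, 1) (c, 0) ^ 2) +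
      (∑ a, ∑ b, ∑ c, (ep a + ep b + ep c) * u (a, 1) (b, 1) (c, 1) ^ 2) := by
  have e1 : ∀ a b c, u (a, 0) (b, 1) (c, 0) ^ 2 = u (a, 0) (c, 0) (b, 1) ^ 2 := fun a b c => by
    rw [h.s2]; ring
  have e2 : ∀ a b c, u (a, 1) (b, 0) (c, 0) ^ 2 = u (b, 0) (c, 0) (a, 1) ^ 2 := fun a b c => by
    rw [h.cyc]
  have e3 : ∀ a b c, u (a, 1) (b, 0) (c, 1) ^ 2 = u (a, 1) (c, 1) (b, 0) ^ 2 := fun a b c => by
    rw [h.s2]; ring
  have e4 : ∀ a b c, u (a, 0) (b, 1) (c, 1) ^ 2 = u (b, 1) (c, 1) (a, 0) ^ 2 := fun a b c => by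
    rw [h.cyc]
  -- swapping the first two labels of each array
  have k : ∀ σ τ : Fin 2, ∑ a, ∑ b, ∑ c, ep b * u (a, σ) (b, σ) (c, τ) ^ 2 =
      ∑ a, ∑ b, ∑ c, ep a * u (a, σ) (b, σ) (c, τ) ^ 2 := by
    intro σ τ
    rw [sum_eq3]
    refine Finset.sum_congr rfl fun a _ => Finset.sum_congr rfl fun b _ =>
      Finset.sum_congr rfl fun c _ => ?_
    rw [h.s1]; ring
  have k2 : ∀ σ : Fin 2, ∑ a, ∑ b, ∑ c, ep c * u (a, σ) (b, σ) (c, σ) ^ 2 =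
      ∑ a, ∑ b, ∑ c, ep b * u (a, σ) (b, σ) (c, σ) ^ 2 := by
    intro σ
    rw [sum_eq3']
    refine Finset.sum_congr rfl fun a _ => Finset.sum_congr rfl fun b _ =>
      Finset.sum_congr rfl fun c _ => ?_
    rw [h.s2]; ring
  simp only [Fintype.sum_prod_type, Fin.sum_univ_two, Finset.sum_add_distrib, e1, e2, e3, e4,
    add_mul, k, k2]
  rw [← sum_eq3' (fun a b c => ep a * u (a, 0) (b, 0) (c, 1) ^ 2),
    ← sum_cyc (fun a b c => ep c * u (a, 0) (b, 0) (c, 1) ^ 2),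
    ← sum_eq3' (fun a b c => ep a * u (a, 1) (b, 1) (c, 0) ^ 2),
    ← sum_cyc (fun a b c => ep c * u (a, 1) (b, 1) (c, 0) ^ 2)]
  ring

theorem QS3_eq {u : Sh → Sh → Sh → ℝ} (h : AntiS u) :
    QS3 u = QA (fun a b c => u (a, 0) (b, 0) (c, 0)) +
      3 * QB (fun a b c => u (a, 0) (b, 0) (c, 1)) +
      3 * QB (fun a b c => u (a, 1) (b, 1) (c, 0)) +
      QA (fun a b c => u (a, 1) (b, 1) (c, 1)) := by
  have e1 : ∀ c, VM (fun a b => u (a, 0) (b, 1) (c, 0)) =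
      VM (fun a b => u (a, 0) (c, 0) (b, 1)) := fun c => by
    rw [← VM_neg]
    congr 1
    funext a b
    rw [h.s2 (a, 0) (c, 0) (b, 1)]; ring
  have e2 : ∀ c, VM (fun a b => u (a, 1) (b, 0) (c, 0)) =
      VM (fun a b => u (a, 0) (c, 0) (b, 1)) := fun c => by
    rw [← VM_transpose]
    congr 1
    funext a b
    exact h.cyc _ _ _
  have e3 : ∀ c, VM (fun a b => u (a, 0) (b, 1) (c, 1)) =
      VM (fun a b => u (a, 1) (c, 1) (b, 0)) := fun c => by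
    rw [← VM_transpose]
    congr 1
    funext a b
    exact h.cyc _ _ _
  have e4 : ∀ c, VM (fun a b => u (a, 1) (b, 0) (c, 1)) =
      VM (fun a b => u (a, 1) (c, 1) (b, 0)) := fun c => by
    rw [← VM_neg]
    congr 1
    funext a b
    rw [h.s2 (a, 1) (c, 1) (b, 0)]; ring
  unfold QS3
  rw [one_body h]
  unfold QA QB VS
  simp only [Fintype.sum_prod_type, Fin.sum_univ_two, Finset.sum_add_distrib, e1, e2, e3, e4]
  ring

/-- Ground components of a shell array: direction `e = 1, 2, 3`, spin `s`. -/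
def gS (u : Sh → Sh → Sh → ℝ) (e : Fin 4) (s : Fin 2) : ℝ :=
  u (0, 0) (0, 1) (e, s) + t5 * ∑ a : Fin 4, if a ≠ 0 ∧ a ≠ e then u (a, 0) (a, 1) (e, s) else 0

theorem QS3_ge {u : Sh → Sh → Sh → ℝ} (h : AntiS u) :
    w5 * nS3 u + 1 / 20 * (nS3 u - 6 * (gS u 1 0 ^ 2 + gS u 2 0 ^ 2 + gS u 3 0 ^ 2 +
      gS u 1 1 ^ 2 + gS u 2 1 ^ 2 + gS u 3 1 ^ 2) / (1 + 2 * t5 ^ 2)) ≤ QS3 u := by
  have hA := QA_ge (fun a b c => u (a, 0) (b, 0) (c, 0)) (fun a b c => h.s1 _ _ _)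
    (fun a b c => h.s2 _ _ _)
  have hE := QA_ge (fun a b c => u (a, 1) (b, 1) (c, 1)) (fun a b c => h.s1 _ _ _)
    (fun a b c => h.s2 _ _ _)
  have hB := QB_ge (fun a b c => u (a, 0) (b, 0) (c, 1)) (fun a b c => h.s1 _ _ _)
  have hC := QB_ge (fun a b c => u (a, 1) (b, 1) (c, 0)) (fun a b c => h.s1 _ _ _)
  have g0 : ∀ a e : Fin 4, u (a, 0) (a, 1) (e, 0) = - u (a, 0) (e, 0) (a, 1) :=
    fun a e => h.s2 _ _ _
  have g1 : ∀ a e : Fin 4, u (a, 0) (a, 1) (e, 1) = u (a, 1) (e, 1) (a, 0) :=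
    fun a e => h.cyc _ _ _
  have x0 : gS u 1 0 ^ 2 = gx (fun a b c => u (a, 0) (b, 0) (c, 1)) ^ 2 := by
    unfold gS gx
    simp only [Fin.sum_univ_four, g0]
    simp
    ring
  have y0 : gS u 2 0 ^ 2 = gy (fun a b c => u (a, 0) (b, 0) (c, 1)) ^ 2 := by
    unfold gS gy
    simp only [Fin.sum_univ_four, g0]
    simp
    ring
  have z0 : gS u 3 0 ^ 2 = gz (fun a b c => u (a, 0) (b, 0) (c, 1)) ^ 2 := by
    unfold gS gz
    simp only [Fin.sum_univ_four, g0]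
    simp
    ring
  have x1 : gS u 1 1 ^ 2 = gx (fun a b c => u (a, 1) (b, 1) (c, 0)) ^ 2 := by
    unfold gS gx
    simp only [Fin.sum_univ_four, g1]
    simp
    ring
  have y1 : gS u 2 1 ^ 2 = gy (fun a b c => u (a, 1) (b, 1) (c, 0)) ^ 2 := by
    unfold gS gy
    simp only [Fin.sum_univ_four, g1]
    simp
    ring
  have z1 : gS u 3 1 ^ 2 = gz (fun a b c => u (a, 1) (b, 1) (c, 0)) ^ 2 := by
    unfold gS gz
    simp only [Fin.sum_univ_four, g1]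
    simp
    ring
  rw [QS3_eq h, nS3_eq h, x0, y0, z0, x1, y1, z1]
  have e : ∀ x y z x' y' z' d : ℝ, 6 * (x + y + z + x' + y' + z') / d =
      3 * (2 * (x + y + z) / d) + 3 * (2 * (x' + y' + z') / d) := fun x y z x' y' z' d => by ring
  rw [e]
  linarith

end

end Vale.Agent.P363.H979.CI
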