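import Vale.Agent.P363.H979.CI.Defs
import Vale.Agent.P363.H979.CI.Sector

/-!
Sums over spin-orbital labels, split into the `1s` core and the `n = 2` shell.
-/

namespace Vale.Agent.P363.H979.CI

noncomputable section

/-- Shell spin-orbital labels. -/
abbrev Sh : Type := Fin 4 × Fin 2

/-- Inclusion of the shell labels. -/
def em (q : Sh) : SO := (q.1.succ, q.2)

/-- `1s up`. -/
def o1 : SO := (0, 0)
/-- `1s down`. -/
def o2 : SO := (0, 1)

theorem sum_SO {M : Type*} [AddCommMonoid M] (f : SO → M) :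
    ∑ p, f p = f o1 + f o2 + ∑ q : Sh, f (em q) := by
  rw [Fintype.sum_prod_type, Fintype.sum_prod_type, Fin.sum_univ_succ]
  simp only [Fin.sum_univ_two]
  rfl

theorem em_ne_o1 (q : Sh) : em q ≠ o1 := by
  intro h
  have := congrArg Prod.fst h
  exact Fin.succ_ne_zero _ this

theorem em_ne_o2 (q : Sh) : em q ≠ o2 := by
  intro h
  have := congrArg Prod.fst h
  exact Fin.succ_ne_zero _ this

theorem o1_ne_o2 : o1 ≠ o2 := by
  intro h
  have := congrArg Prod.snd h
  exact absurd this (by decide)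

theorem sum_cons {n : ℕ} {α M : Type*} [Fintype α] [AddCommMonoid M]
    (f : (Fin (n + 1) → α) → M) :
    ∑ J, f J = ∑ p, ∑ J : Fin n → α, f (Fin.cons p J) := by
  rw [← Fintype.sum_prod_type' (f := fun p (J : Fin n → α) => f (Fin.cons p J))]
  exact (Fintype.sum_equiv (Fin.consEquiv (fun _ : Fin (n + 1) => α)) _ _ (fun x => rfl)).symm

theorem sum_fin2 {α M : Type*} [Fintype α] [AddCommMonoid M] (f : (Fin 2 → α) → M) :
    ∑ J, f J = ∑ r, ∑ s, f ![r, s] := by
  refine (sum_cons f).trans (Finset.sum_congr rfl fun r _ => ?_)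
  refine (sum_cons (n := 0) (M := M) _).trans (Finset.sum_congr rfl fun s _ => ?_)
  exact Fintype.sum_subsingleton _ ![]

theorem sum_fin3 {α M : Type*} [Fintype α] [AddCommMonoid M] (f : (Fin 3 → α) → M) :
    ∑ J, f J = ∑ r, ∑ s, ∑ t, f ![r, s, t] := by
  refine (sum_cons f).trans (Finset.sum_congr rfl fun r _ => ?_)
  refine (sum_cons (n := 1) (M := M) _).trans (Finset.sum_congr rfl fun s _ => ?_)
  refine (sum_cons (n := 0) (M := M) _).trans (Finset.sum_congr rfl fun t _ => ?_)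
  exact Fintype.sum_subsingleton _ ![]

/-- Symmetric sums over three labels. -/
theorem sum3_sym (g : SO → SO → SO → ℝ) (h12 : ∀ r s t, g r s t = g s r t)
    (h23 : ∀ r s t, g r s t = g r t s) (z1 : ∀ t, g o1 o1 t = 0) (z2 : ∀ t, g o2 o2 t = 0) :
    ∑ r, ∑ s, ∑ t, g r s t =
      (∑ r : Sh, ∑ s : Sh, ∑ t : Sh, g (em r) (em s) (em t)) +
      3 * (∑ r : Sh, ∑ s : Sh, g o1 (em r) (em s)) +
      3 * (∑ r : Sh, ∑ s : Sh, g o2 (em r) (em s)) +
      6 * ∑ r : Sh, g o1 o2 (em r) := by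
  have a1 : ∀ r x, g (em r) o1 x = g o1 (em r) x := fun r x => h12 _ _ _
  have a2 : ∀ r x, g (em r) o2 x = g o2 (em r) x := fun r x => h12 _ _ _
  have a3 : ∀ x, g o2 o1 x = g o1 o2 x := fun x => h12 _ _ _
  have a4 : ∀ x r, g x (em r) o1 = g x o1 (em r) := fun x r => h23 _ _ _
  have a5 : ∀ x r, g x (em r) o2 = g x o2 (em r) := fun x r => h23 _ _ _
  have a6 : ∀ x, g x o2 o1 = g x o1 o2 := fun x => h23 _ _ _
  have z3 : ∀ x, g x o1 o1 = 0 := fun x => by rw [h12, h23, z1]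
  have z4 : ∀ x, g x o2 o2 = 0 := fun x => by rw [h12, h23, z2]
  simp only [sum_SO, Finset.sum_add_distrib, z1, z2, z3, z4, a1, a2, a3, a4, a5, a6,
    add_zero, zero_add, Finset.sum_const_zero]
  ring

/-- Symmetric sums over two labels. -/
theorem sum2_sym (g : SO → SO → ℝ) (h12 : ∀ r s, g r s = g s r)
    (z1 : g o1 o1 = 0) (z2 : g o2 o2 = 0) :
    ∑ r, ∑ s, g r s =
      (∑ r : Sh, ∑ s : Sh, g (em r) (em s)) + 2 * (∑ r : Sh, g o1 (em r)) +
      2 * (∑ r : Sh, g o2 (em r)) + 2 * g o1 o2 := by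
  have a1 : ∀ r, g (em r) o1 = g o1 (em r) := fun r => h12 _ _
  have a2 : ∀ r, g (em r) o2 = g o2 (em r) := fun r => h12 _ _
  have a3 : g o2 o1 = g o1 o2 := h12 _ _
  simp only [sum_SO, Finset.sum_add_distrib, z1, z2, a1, a2, a3,
    add_zero, zero_add]
  ring

end

end Vale.Agent.P363.H979.CI
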