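import Vale.Agent.P363.H979.CI.Rdm

/-!
The ground tensors attain the lowest values: `WF D (C5 e s) = D 0 0 0 0 + w5`,
`WF D C4 = D 0 0 0 0 + w4`.
-/

namespace Vale.Agent.P363.H979.CI

open scoped ComplexConjugate

noncomputable section

variable {D : Fin 5 → Fin 5 → Fin 5 → Fin 5 → ℝ}

theorem conj_C5 (e : Fin 5) (s : Fin 2) (J : Fin 5 → SO) : conj (C5 e s J) = C5 e s J := by
  unfold C5 asym
  simp only [map_sum, map_mul, map_add, map_intCast, Complex.conj_ofReal, conj_ind,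
    apply_ite conj, map_zero]

theorem conj_C4 (J : Fin 4 → SO) : conj (C4 J) = C4 J := by
  unfold C4 asym
  simp only [map_sum, map_mul, map_add, map_intCast, Complex.conj_ofReal, conj_ind,
    apply_ite conj, map_zero]

theorem im_C5 (e : Fin 5) (s : Fin 2) : im5 (C5 e s) = fun _ _ _ _ _ => 0 := by
  funext p q r s' t
  exact Complex.conj_eq_iff_im.1 (conj_C5 e s _)

theorem im_C4 : im4 C4 = fun _ _ _ _ => 0 := by
  funext p q r s'
  exact Complex.conj_eq_iff_im.1 (conj_C4 _)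

theorem W5_zero : W5 D (fun _ _ _ _ _ => 0) = 0 := by
  unfold W5
  simp [Vf_zero]

theorem W4_zero : W4 D (fun _ _ _ _ => 0) = 0 := by
  unfold W4
  simp [Vf_zero]

/-- Reference tuples for the evaluation. -/
def K3 (x y z : SO) : Fin 5 → SO := ![(0, 0), (0, 1), x, y, z]

/-- the label `(b, τ)` is missing. -/
theorem miss (x y z : SO) (w : SO) (h0 : w ≠ (0, 0)) (h1 : w ≠ (0, 1)) (hx : x ≠ w) (hy : y ≠ w)
    (hz : z ≠ w) : ∀ i, K3 x y z i ≠ w := by
  intro i
  fin_cases i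
  · exact fun h => h0 h.symm
  · exact fun h => h1 h.symm
  · exact hx
  · exact hy
  · exact hz

theorem ne_fst {a b : Fin 5} {s t : Fin 2} (h : a ≠ b) : ((a, s) : SO) ≠ (b, t) :=
  fun h' => h (congrArg Prod.fst h')

theorem ne_snd {a b : Fin 5} {s t : Fin 2} (h : s ≠ t) : ((a, s) : SO) ≠ (b, t) :=
  fun h' => h (congrArg Prod.snd h')

theorem C5_three {e x y z : Fin 5} {σ s : Fin 2} :
    C5 e s (K3 (x, σ) (y, σ) (z, σ)) = 0 := by
  refine C5_zero fun b hb => ?_
  have hb0 := adm_ne e b hb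
  rcases fin2_cases σ with rfl | rfl
  · exact ⟨3, miss _ _ _ (b, 1) (ne_fst hb0) (ne_fst hb0) (ne_snd (by decide))
      (ne_snd (by decide)) (ne_snd (by decide))⟩
  · exact ⟨2, miss _ _ _ (b, 0) (ne_fst hb0) (ne_fst hb0) (ne_snd (by decide))
      (ne_snd (by decide)) (ne_snd (by decide))⟩

/-- two spins opposite to the spin of the open label. -/
theorem C5_two_one {e x y z : Fin 5} (he : 2 ≤ e) :
    C5 e 0 (K3 (x, 1) (y, 1) (z, 0)) = 0 := by
  refine C5_zero fun b hb => ?_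
  have hb0 := adm_ne e b hb
  have hbe := adm_ne_e e b he hb
  have he0 : e ≠ 0 := by rintro rfl; exact absurd he (by decide)
  by_cases hz : z = b
  · exact ⟨4, miss _ _ _ (e, 0) (ne_fst he0) (ne_fst he0) (ne_snd (by decide))
      (ne_snd (by decide)) (ne_fst (by rw [hz]; exact hbe.symm))⟩
  · exact ⟨2, miss _ _ _ (b, 0) (ne_fst hb0) (ne_fst hb0) (ne_snd (by decide))
      (ne_snd (by decide)) (ne_fst hz)⟩

theorem C5_two_one' {e x y z : Fin 5} (he : 2 ≤ e) :
    C5 e 1 (K3 (x, 0) (y, 0) (z, 1)) = 0 := by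
  refine C5_zero fun b hb => ?_
  have hb0 := adm_ne e b hb
  have hbe := adm_ne_e e b he hb
  have he0 : e ≠ 0 := by rintro rfl; exact absurd he (by decide)
  by_cases hz : z = b
  · exact ⟨4, miss _ _ _ (e, 1) (ne_fst he0) (ne_fst he0) (ne_snd (by decide))
      (ne_snd (by decide)) (ne_fst (by rw [hz]; exact hbe.symm))⟩
  · exact ⟨3, miss _ _ _ (b, 1) (ne_fst hb0) (ne_fst hb0) (ne_snd (by decide))
      (ne_snd (by decide)) (ne_fst hz)⟩

theorem C5_B1 {e x : Fin 5} (he : 2 ≤ e) (hx : adm e x) :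
    C5 e 0 (K3 (x, 0) (e, 0) (x, 1)) = - (co5 x : ℂ) := by
  rw [← C5_val he hx 0]
  have h := anti_C5 e 0 (Equiv.swap 3 4) (tup5 x e 0)
  have h2 : (tup5 x e 0) ∘ (Equiv.swap 3 4 : Equiv.Perm (Fin 5)) = K3 (x, 0) (e, 0) (x, 1) := by
    funext i
    fin_cases i <;> rfl
  rw [h2, Equiv.Perm.sign_swap (by decide)] at h
  rw [h]
  simp

theorem C5_B2 {e y : Fin 5} (he : 2 ≤ e) (hy : adm e y) :
    C5 e 0 (K3 (e, 0) (y, 0) (y, 1)) = (co5 y : ℂ) := by
  have h := anti_C5 e 0 (Equiv.swap 2 3) (K3 (y, 0) (e, 0) (y, 1))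
  have h2 : (K3 (y, 0) (e, 0) (y, 1)) ∘ (Equiv.swap 2 3 : Equiv.Perm (Fin 5)) =
      K3 (e, 0) (y, 0) (y, 1) := by
    funext i
    fin_cases i <;> rfl
  rw [h2, Equiv.Perm.sign_swap (by decide), C5_B1 he hy] at h
  rw [h]
  simp

theorem C5_B0 {e x y z : Fin 5} (he : 2 ≤ e) (h1 : ¬ (x = z ∧ y = e)) (h2 : ¬ (y = z ∧ x = e)) :
    C5 e 0 (K3 (x, 0) (y, 0) (z, 1)) = 0 := by
  refine C5_zero fun b hb => ?_
  have hb0 := adm_ne e b hb
  have hbe := adm_ne_e e b he hb
  have he0 : e ≠ 0 := by rintro rfl; exact absurd he (by decide)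
  by_cases hz : z = b
  · subst hz
    by_cases hx : x = z
    · -- then `y ≠ e`
      have hy : y ≠ e := fun h => h1 ⟨hx, h⟩
      exact ⟨4, miss _ _ _ (e, 0) (ne_fst he0) (ne_fst he0) (ne_fst (by rw [hx]; exact hbe.symm))
        (ne_fst hy) (ne_snd (by decide))⟩
    · by_cases hy : y = z
      · have hx' : x ≠ e := fun h => h2 ⟨hy, h⟩
        exact ⟨4, miss _ _ _ (e, 0) (ne_fst he0) (ne_fst he0) (ne_fst hx')
          (ne_fst (by rw [hy]; exact hbe.symm)) (ne_snd (by decide))⟩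
      · exact ⟨2, miss _ _ _ (z, 0) (ne_fst hb0) (ne_fst hb0) (ne_fst hx) (ne_fst hy)
          (ne_snd (by decide))⟩
  · exact ⟨3, miss _ _ _ (b, 1) (ne_fst hb0) (ne_fst hb0) (ne_snd (by decide))
      (ne_snd (by decide)) (ne_fst hz)⟩

/-- Spin flip. -/
theorem C5_flip {e x y z : Fin 5} (he : 2 ≤ e) :
    C5 e 1 (K3 (x, 1) (y, 1) (z, 0)) = - C5 e 0 (K3 (x, 0) (y, 0) (z, 1)) := by
  have hz : ∀ (h1 : ¬ (x = z ∧ y = e)) (h2 : ¬ (y = z ∧ x = e)),
      C5 e 1 (K3 (x, 1) (y, 1) (z, 0)) = 0 := by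
    intro h1 h2
    refine C5_zero fun b hb => ?_
    have hb0 := adm_ne e b hb
    have hbe := adm_ne_e e b he hb
    have he0 : e ≠ 0 := by rintro rfl; exact absurd he (by decide)
    by_cases hz : z = b
    · subst hz
      by_cases hx : x = z
      · have hy : y ≠ e := fun h => h1 ⟨hx, h⟩
        exact ⟨4, miss _ _ _ (e, 1) (ne_fst he0) (ne_fst he0)
          (ne_fst (by rw [hx]; exact hbe.symm)) (ne_fst hy) (ne_snd (by decide))⟩
      · by_cases hy : y = z
        · have hx' : x ≠ e := fun h => h2 ⟨hy, h⟩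
          exact ⟨4, miss _ _ _ (e, 1) (ne_fst he0) (ne_fst he0) (ne_fst hx')
            (ne_fst (by rw [hy]; exact hbe.symm)) (ne_snd (by decide))⟩
        · exact ⟨3, miss _ _ _ (z, 1) (ne_fst hb0) (ne_fst hb0) (ne_fst hx) (ne_fst hy)
            (ne_snd (by decide))⟩
    · exact ⟨2, miss _ _ _ (b, 0) (ne_fst hb0) (ne_fst hb0) (ne_snd (by decide))
        (ne_snd (by decide)) (ne_fst hz)⟩
  by_cases h1 : x = z ∧ y = e
  · obtain ⟨rfl, rfl⟩ := h1
    by_cases hx : adm y x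
    · rw [C5_B1 he hx, neg_neg, ← C5_val he hx 1]
      have h := anti_C5 y 1 (Equiv.swap 2 3 * Equiv.swap 3 4) (tup5 x y 1)
      have h2 : (tup5 x y 1) ∘ ((Equiv.swap 2 3 * Equiv.swap 3 4 : Equiv.Perm (Fin 5))) =
          K3 (x, 1) (y, 1) (x, 0) := by
        funext i
        fin_cases i <;> rfl
      rw [h2, Equiv.Perm.sign_mul, Equiv.Perm.sign_swap (by decide),
        Equiv.Perm.sign_swap (by decide)] at h
      rw [h]
      simp
    · have e1 : ∀ s : Fin 2, ∀ J, (∀ b, adm y b → ∃ j, ∀ i, J i ≠ tup5 b y s j) →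
          C5 y s J = 0 := fun s J h => C5_zero h
      by_cases hxy : x = y
      · subst hxy
        rw [(anti_C5 x 1).eq_zero (K3 (x, 1) (x, 1) (x, 0)) (i := 2) (j := 3) (by decide) rfl,
          (anti_C5 x 0).eq_zero (K3 (x, 0) (x, 0) (x, 1)) (i := 2) (j := 3) (by decide) rfl]
        simp
      · have hx0 : x = 0 := by
          by_contra hx0
          by_cases hx1 : x = 1
          · exact hx (Or.inl hx1)
          · exact hx (adm_of y x he hx0 hx1 hxy)
        subst hx0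
        rw [(anti_C5 y 1).eq_zero (K3 (0, 1) (y, 1) (0, 0)) (i := 0) (j := 4) (by decide) rfl,
          (anti_C5 y 0).eq_zero (K3 (0, 0) (y, 0) (0, 1)) (i := 0) (j := 2) (by decide) rfl]
        simp
  · by_cases h2 : y = z ∧ x = e
    · obtain ⟨rfl, rfl⟩ := h2
      have sw : ∀ s t : Fin 2, C5 x s (K3 (x, t) (y, t) (y, 1 - t)) =
          - C5 x s (K3 (y, t) (x, t) (y, 1 - t)) := by
        intro s t
        have h := anti_C5 x s (Equiv.swap 2 3) (K3 (y, t) (x, t) (y, 1 - t))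
        have h2 : (K3 (y, t) (x, t) (y, 1 - t)) ∘ (Equiv.swap 2 3 : Equiv.Perm (Fin 5)) =
            K3 (x, t) (y, t) (y, 1 - t) := by
          funext i
          fin_cases i <;> rfl
        rw [h2, Equiv.Perm.sign_swap (by decide)] at h
        rw [h]
        simp
      have s0 := sw 0 0
      have s1 := sw 1 1
      simp only [show (1 : Fin 2) - 0 = 1 from rfl, show (1 : Fin 2) - 1 = 0 from rfl] at s0 s1
      rw [s0, s1]
      by_cases hy : adm x y
      · rw [C5_B1 he hy, neg_neg, neg_inj, ← C5_val he hy 1]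
        have h := anti_C5 x 1 (Equiv.swap 2 3 * Equiv.swap 3 4) (tup5 y x 1)
        have h2 : (tup5 y x 1) ∘ ((Equiv.swap 2 3 * Equiv.swap 3 4 : Equiv.Perm (Fin 5))) =
            K3 (y, 1) (x, 1) (y, 0) := by
          funext i
          fin_cases i <;> rfl
        rw [h2, Equiv.Perm.sign_mul, Equiv.Perm.sign_swap (by decide),
          Equiv.Perm.sign_swap (by decide)] at h
        rw [h]
        simp
      · by_cases hxy : x = y
        · subst hxy
          rw [(anti_C5 x 1).eq_zero (K3 (x, 1) (x, 1) (x, 0)) (i := 2) (j := 3) (by decide) rfl,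
            (anti_C5 x 0).eq_zero (K3 (x, 0) (x, 0) (x, 1)) (i := 2) (j := 3) (by decide) rfl]
          simp
        · have hx0 : y = 0 := by
            by_contra hx0
            by_cases hx1 : y = 1
            · exact hy (Or.inl hx1)
            · exact hy (adm_of x y he hx0 hx1 (fun h => hxy h.symm))
          subst hx0
          rw [(anti_C5 x 1).eq_zero (K3 (0, 1) (x, 1) (0, 0)) (i := 0) (j := 4) (by decide) rfl,
            (anti_C5 x 0).eq_zero (K3 (0, 0) (x, 0) (0, 1)) (i := 0) (j := 2) (by decide) rfl]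
          simp
    · rw [hz h1 h2, C5_B0 he h1 h2]
      simp

/-- Array of values in the sector with two spins up and one spin down. -/
def Be (e : Fin 4) (a b c : Fin 4) : ℝ :=
  if a = c ∧ b = e ∧ a ≠ e then - co5 a.succ
  else if b = c ∧ a = e ∧ b ≠ e then co5 b.succ else 0

theorem adm_succ : ∀ e a : Fin 4, e ≠ 0 → (adm e.succ a.succ ↔ a ≠ e) := by
  unfold adm; decide

theorem ge_succ : ∀ e : Fin 4, e ≠ 0 → (2 : Fin 5) ≤ e.succ := by decide

theorem C5_B (e : Fin 4) (he : e ≠ 0) (a b c : Fin 4) :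
    C5 e.succ 0 (K3 (a.succ, 0) (b.succ, 0) (c.succ, 1)) = (Be e a b c : ℂ) := by
  have he' := ge_succ e he
  unfold Be
  by_cases h1 : a = c ∧ b = e ∧ a ≠ e
  · rw [if_pos h1]
    obtain ⟨rfl, rfl, h3⟩ := h1
    rw [C5_B1 he' ((adm_succ b a he).2 h3)]
    push_cast; rfl
  · rw [if_neg h1]
    by_cases h2 : b = c ∧ a = e ∧ b ≠ e
    · rw [if_pos h2]
      obtain ⟨rfl, rfl, h3⟩ := h2
      rw [C5_B2 he' ((adm_succ a b he).2 h3)]
    · rw [if_neg h2]
      push_cast
      by_cases hab : a = b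
      · subst hab
        exact (anti_C5 e.succ 0).eq_zero _ (i := 2) (j := 3) (by decide) rfl
      · refine C5_B0 he' (fun h => h1 ?_) (fun h => h2 ?_)
        · have i1 := Fin.succ_injective _ h.1
          have i2 := Fin.succ_injective _ h.2
          exact ⟨i1, i2, fun h' => hab (h'.trans i2.symm)⟩
        · have i1 := Fin.succ_injective _ h.1
          have i2 := Fin.succ_injective _ h.2
          exact ⟨i1, i2, fun h' => hab (i2.trans h'.symm)⟩

theorem Be_anti (e : Fin 4) (a b c : Fin 4) : Be e a b c = - Be e b a c := by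
  unfold Be
  by_cases h1 : a = c ∧ b = e ∧ a ≠ e
  · have h2 : ¬ (b = c ∧ a = e ∧ b ≠ e) := fun h => h1.2.2 h.2.1
    rw [if_pos h1, if_neg h2, if_pos h1]
  · by_cases h2 : b = c ∧ a = e ∧ b ≠ e
    · rw [if_neg h1, if_pos h2, if_pos h2]; ring
    · rw [if_neg h1, if_neg h2, if_neg h2, if_neg h1]; ring

theorem QB_Be (e : Fin 4) (he : e ≠ 0) : QB (Be e) = w5 * n3 (Be e) := by
  have c1 : co5 1 = eta5 := by simp [co5]
  have c2 : co5 2 = eta5 * t5 := by simp [co5]
  have c3 : co5 3 = eta5 * t5 := by simp [co5]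
  have c4 : co5 4 = eta5 * t5 := by simp [co5]
  have h1 := t5_eq1
  have h2 := t5_eq2
  have key : A5 + B5 * (t5 ^ 2 + t5 ^ 2) + 2 * be * (t5 + t5) + 2 * ga * (t5 * t5) =
      w5 * (1 + t5 ^ 2 + t5 ^ 2) := by
    linear_combination h1 + 2 * t5 * (-h2)
  rw [QB_eq _ (Be_anti e), n3_eq _ (Be_anti e)]
  have h3 : e = 1 ∨ e = 2 ∨ e = 3 := by revert e; decide
  rcases h3 with rfl | rfl | rfl
  · simp [Be, c1, c2, c3, c4]
    linear_combination 2 * eta5 ^ 2 * key
  · simp [Be, c1, c2, c3, c4]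
    linear_combination 2 * eta5 ^ 2 * key
  · simp [Be, c1, c2, c3, c4]
    linear_combination 2 * eta5 ^ 2 * key

theorem QA_zero : QA (fun _ _ _ => 0) = 0 := by
  unfold QA VM
  simp

theorem QB_zero : QB (fun _ _ _ => 0) = 0 := by
  unfold QB VM
  simp

theorem n3_zero : n3 (fun _ _ _ => 0) = 0 := by
  unfold n3
  simp

theorem QB_neg (B : Fin 4 → Fin 4 → Fin 4 → ℝ) : QB (fun a b c => - B a b c) = QB B := by
  unfold QB
  simp only [neg_sq]
  have h1 : ∀ c, VM (fun a b => - B a b c) = VM (fun a b => B a b c) := fun c => VM_neg _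
  have h2 : ∀ b, VM (fun a c => - B a b c) = VM (fun a c => B a b c) := fun b => VM_neg _
  simp only [h1, h2]

theorem n3_neg (B : Fin 4 → Fin 4 → Fin 4 → ℝ) : n3 (fun a b c => - B a b c) = n3 B := by
  unfold n3
  simp only [neg_sq]

/-- **Value of the repulsion form on the atomic ground tensors.** -/
theorem WF_C5 (T : Table D) (e : Fin 5) (he : 2 ≤ e) (s : Fin 2) :
    WF D (C5 e s) = D 0 0 0 0 + w5 := by
  obtain ⟨e', rfl⟩ : ∃ e' : Fin 4, e'.succ = e := by
    revert e; decide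
  have he0 : e' ≠ 0 := by
    rintro rfl; exact absurd he (by decide)
  have hre : Anti5 (re5 (C5 e'.succ s)) :=
    anti5_of (anti_C5 _ _) (core_C5 _ _) Complex.re (fun z => Complex.neg_re z) rfl
  have hS := antiS_of hre
  have hn : 20 * nS3 (sh5 (re5 (C5 e'.succ s))) = 1 := by
    have h1 := nsq5_eq (C5 e'.succ s)
    rw [nsq_C5 _ he s, im_C5, nr5_eq hre] at h1
    have h2 : nr5 (fun _ _ _ _ _ => 0) = 0 := by
      unfold nr5 np
      simp
    rw [h2] at h1
    linarith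
  have hQ : QS3 (sh5 (re5 (C5 e'.succ s))) = w5 * nS3 (sh5 (re5 (C5 e'.succ s))) := by
    rw [QS3_eq hS, nS3_eq hS]
    have a0 : (fun a b c : Fin 4 => sh5 (re5 (C5 e'.succ s)) (a, 0) (b, 0) (c, 0)) =
        fun _ _ _ => 0 := by
      funext a b c
      show (C5 e'.succ s (K3 (a.succ, 0) (b.succ, 0) (c.succ, 0))).re = 0
      rw [C5_three]; rfl
    have a1 : (fun a b c : Fin 4 => sh5 (re5 (C5 e'.succ s)) (a, 1) (b, 1) (c, 1)) =
        fun _ _ _ => 0 := by
      funext a b c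
      show (C5 e'.succ s (K3 (a.succ, 1) (b.succ, 1) (c.succ, 1))).re = 0
      rw [C5_three]; rfl
    rcases fin2_cases s with rfl | rfl
    · have b0 : (fun a b c : Fin 4 => sh5 (re5 (C5 e'.succ 0)) (a, 0) (b, 0) (c, 1)) = Be e' := by
        funext a b c
        show (C5 e'.succ 0 (K3 (a.succ, 0) (b.succ, 0) (c.succ, 1))).re = _
        rw [C5_B e' he0]; exact Complex.ofReal_re _
      have b1 : (fun a b c : Fin 4 => sh5 (re5 (C5 e'.succ 0)) (a, 1) (b, 1) (c, 0)) =
          fun _ _ _ => 0 := by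
        funext a b c
        show (C5 e'.succ 0 (K3 (a.succ, 1) (b.succ, 1) (c.succ, 0))).re = 0
        rw [C5_two_one he]; rfl
      rw [a0, a1, b0, b1, QA_zero, QB_zero, n3_zero, QB_Be e' he0]
      ring
    · have b0 : (fun a b c : Fin 4 => sh5 (re5 (C5 e'.succ 1)) (a, 0) (b, 0) (c, 1)) =
          fun _ _ _ => 0 := by
        funext a b c
        show (C5 e'.succ 1 (K3 (a.succ, 0) (b.succ, 0) (c.succ, 1))).re = 0
        rw [C5_two_one' he]; rfl
      have b1 : (fun a b c : Fin 4 => sh5 (re5 (C5 e'.succ 1)) (a, 1) (b, 1) (c, 0)) =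
          fun a b c => - Be e' a b c := by
        funext a b c
        show (C5 e'.succ 1 (K3 (a.succ, 1) (b.succ, 1) (c.succ, 0))).re = _
        rw [C5_flip he, C5_B e' he0, Complex.neg_re, Complex.ofReal_re]
      rw [a0, a1, b0, b1, QA_zero, QB_zero, n3_zero, QB_neg, n3_neg, QB_Be e' he0]
      ring
  rw [WF5_eq, im_C5, W5_zero, W5_eq T hre, hQ]
  linear_combination (D 0 0 0 0 + w5) * hn

end

end Vale.Agent.P363.H979.CI
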