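import Vale.Agent.P363.H979.CI.Value

/-!
The ionic ground tensor attains the lowest value: `WF D C4 = D 0 0 0 0 + w4`.  Collected facts on
`C5`, `C4` for the users of block B3b.
-/

namespace Vale.Agent.P363.H979.CI

open scoped ComplexConjugate

noncomputable section

variable {D : Fin 5 → Fin 5 → Fin 5 → Fin 5 → ℝ}

theorem nS2_eq {u : Sh → Sh → ℝ} (h : ∀ p q, u q p = - u p q) :
    nS2 u = n2 (fun a b => u (a, 0) (b, 0)) + 2 * n2 (fun a b => u (a, 0) (b, 1)) +
      n2 (fun a b => u (a, 1) (b, 1)) := by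
  have e2 : ∀ a b, u (a, 1) (b, 0) ^ 2 = u (b, 0) (a, 1) ^ 2 := fun a b => by
    rw [h (b, 0) (a, 1)]; ring
  unfold nS2 n2
  simp only [Fintype.sum_prod_type, Fin.sum_univ_two, Finset.sum_add_distrib, e2]
  rw [Finset.sum_comm (f := fun x y => u (y, 0) (x, 1) ^ 2)]
  ring

theorem QS2_eq {u : Sh → Sh → ℝ} (h : ∀ p q, u q p = - u p q) :
    QS2 u = QJ (fun a b => u (a, 0) (b, 0)) + 2 * QI (fun a b => u (a, 0) (b, 1)) +
      QJ (fun a b => u (a, 1) (b, 1)) := by
  have e1 : VM (fun a b => u (a, 1) (b, 0)) = VM (fun a b => u (a, 0) (b, 1)) := by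
    rw [← VM_transpose, ← VM_neg]
    congr 1
    funext a b
    rw [h (a, 0) (b, 1)]; ring
  have e2 : ∀ a b, u (a, 1) (b, 0) ^ 2 = u (b, 0) (a, 1) ^ 2 := fun a b => by
    rw [h (b, 0) (a, 1)]; ring
  have k : ∀ σ : Fin 2, ∑ a, ∑ b, ep b * u (a, σ) (b, σ) ^ 2 =
      ∑ a, ∑ b, ep a * u (a, σ) (b, σ) ^ 2 := by
    intro σ
    rw [Finset.sum_comm]
    refine Finset.sum_congr rfl fun a _ => Finset.sum_congr rfl fun b _ => ?_
    rw [h]; ring
  unfold QS2 QJ QI VS
  simp only [Fintype.sum_prod_type, Fin.sum_univ_two, Finset.sum_add_distrib, e2, e1, add_mul,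
    k]
  rw [Finset.sum_comm (f := fun x y => ep x * u (y, 0) (x, 1) ^ 2)]
  ring

/-- Reference tuples. -/
def K2 (x y : SO) : Fin 4 → SO := ![(0, 0), (0, 1), x, y]

theorem miss4 (x y : SO) (w : SO) (h0 : w ≠ (0, 0)) (h1 : w ≠ (0, 1)) (hx : x ≠ w) (hy : y ≠ w) :
    ∀ i, K2 x y i ≠ w := by
  intro i
  fin_cases i
  · exact fun h => h0 h.symm
  · exact fun h => h1 h.symm
  · exact hx
  · exact hy

theorem C4_same {x y : Fin 5} {σ : Fin 2} : C4 (K2 (x, σ) (y, σ)) = 0 := by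
  refine C4_zero fun b hb0 => ?_
  rcases fin2_cases σ with rfl | rfl
  · exact ⟨3, miss4 _ _ (b, 1) (ne_fst hb0) (ne_fst hb0) (ne_snd (by decide))
      (ne_snd (by decide))⟩
  · exact ⟨2, miss4 _ _ (b, 0) (ne_fst hb0) (ne_fst hb0) (ne_snd (by decide))
      (ne_snd (by decide))⟩

theorem C4_opp (a b : Fin 4) :
    C4 (K2 (a.succ, 0) (b.succ, 1)) = ((if a = b then co4 a.succ else 0 : ℝ) : ℂ) := by
  by_cases hab : a = b
  · subst hab
    rw [if_pos rfl]
    exact C4_val (Fin.succ_ne_zero a)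
  · rw [if_neg hab]
    push_cast
    refine C4_zero fun c hc0 => ?_
    by_cases hca : a.succ = c
    · refine ⟨3, miss4 _ _ (c, 1) (ne_fst hc0) (ne_fst hc0) (ne_snd (by decide)) (ne_fst ?_)⟩
      rw [← hca]
      exact fun h => hab (Fin.succ_injective _ h).symm
    · exact ⟨2, miss4 _ _ (c, 0) (ne_fst hc0) (ne_fst hc0) (ne_fst hca) (ne_snd (by decide))⟩

/-- **Value of the repulsion form on the ionic ground tensor.** -/
theorem WF_C4 (T : Table D) : WF D C4 = D 0 0 0 0 + w4 := by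
  have hre : Anti4 (re4 C4) :=
    anti4_of anti_C4 core_C4 Complex.re (fun z => Complex.neg_re z) rfl
  have hS : ∀ p q, sh4 (re4 C4) q p = - sh4 (re4 C4) p q := fun _ _ => hre.s3 _ _ _ _
  have hn : 12 * nS2 (sh4 (re4 C4)) = 1 := by
    have h1 := nsq4_eq C4
    rw [nsq_C4, im_C4, nr4_eq hre] at h1
    have h2 : nr4 (fun _ _ _ _ => 0) = 0 := by
      unfold nr4 np
      simp
    rw [h2] at h1
    linarith
  have hQ : QS2 (sh4 (re4 C4)) = w4 * nS2 (sh4 (re4 C4)) := by
    rw [QS2_eq hS, nS2_eq hS]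
    have a0 : (fun a b : Fin 4 => sh4 (re4 C4) (a, 0) (b, 0)) = fun _ _ => 0 := by
      funext a b
      show (C4 (K2 (a.succ, 0) (b.succ, 0))).re = 0
      rw [C4_same]; rfl
    have a1 : (fun a b : Fin 4 => sh4 (re4 C4) (a, 1) (b, 1)) = fun _ _ => 0 := by
      funext a b
      show (C4 (K2 (a.succ, 1) (b.succ, 1))).re = 0
      rw [C4_same]; rfl
    have b0 : (fun a b : Fin 4 => sh4 (re4 C4) (a, 0) (b, 1)) =
        fun a b => if a = b then co4 a.succ else 0 := by
      funext a b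
      show (C4 (K2 (a.succ, 0) (b.succ, 1))).re = _
      rw [C4_opp]; exact Complex.ofReal_re _
    have z1 : QJ (fun _ _ => 0) = 0 := by
      unfold QJ VM
      simp
    have z2 : n2 (fun _ _ => 0) = 0 := by
      unfold n2
      simp
    have c1 : co4 1 = eta4 := by simp [co4]
    have c2 : co4 2 = eta4 * t4 := by simp [co4]
    have c3 : co4 3 = eta4 * t4 := by simp [co4]
    have c4 : co4 4 = eta4 * t4 := by simp [co4]
    have h1 := t4_eq1
    have h2 := t4_eq2
    rw [a0, a1, b0, z1, z2]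
    have q : QI (fun a b => if a = b then co4 a.succ else 0) =
        w4 * n2 (fun a b => if a = b then co4 a.succ else 0) := by
      unfold QI n2
      rw [VM_eq]
      simp [Fin.sum_univ_four, c1, c2, c3, c4, ep]
      have key : A4 + B4 * (3 * t4 ^ 2) + 2 * be * (3 * t4) + 2 * ga * (3 * t4 ^ 2) =
          w4 * (1 + 3 * t4 ^ 2) := by
        linear_combination h1 + 3 * t4 * (-h2)
      unfold A4 B4 be ga at key
      linear_combination eta4 ^ 2 * key
    rw [q]
    ring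
  rw [WF4_eq, im_C4, W4_zero, W4_eq T hre, hQ]
  linear_combination (D 0 0 0 0 + w4) * hn

end

end Vale.Agent.P363.H979.CI
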